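import Vale.Agent.P352Z.S0.Fm

/-!
# P352AA: the marginal part of an asymptotic expansion
-/

set_option linter.all false

open Filter Topology Polynomial
open scoped ComplexConjugate

namespace Vale.Agent.P352AA

open Vale.Agent.P352X.CL (ph vd)
open Vale.Agent.P352X.ZZ.S0 (ph_add ph_conj)

noncomputable section

/-- functions without a marginal part -/
def E : Submodule ℂ (ℝ → ℂ) where
  carrier := {φ | ∃ G : Finset (ℂ × ℕ), (∀ p ∈ G, p.1 ≠ 0) ∧ ∀ (S : Finset ℝ) (c : ℝ → ℂ),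
    (∀ p ∈ G, ∑ τ ∈ S, c τ * ph p τ = 0) →
      Tendsto (fun t => ∑ τ ∈ S, c τ * φ (τ + t)) atTop (𝓝 0)}
  zero_mem' := ⟨∅, by simp, fun S c _ => by simpa using tendsto_const_nhds⟩
  add_mem' := by
    classical
    rintro φ ψ ⟨G, a, b⟩ ⟨G', a', b'⟩
    refine ⟨G ∪ G', fun p hp => (Finset.mem_union.1 hp).elim (a p) (a' p), fun S c h => ?_⟩
    simpa only [Pi.add_apply, mul_add, Finset.sum_add_distrib, add_zero] using
      (b S c fun p hp => h p (Finset.mem_union_left _ hp)).add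
        (b' S c fun p hp => h p (Finset.mem_union_right _ hp))
  smul_mem' := by
    rintro z φ ⟨G, a, b⟩
    refine ⟨G, a, fun S c h => ?_⟩
    simpa only [Pi.smul_apply, smul_eq_mul, mul_left_comm (c _), ← Finset.mul_sum, mul_zero]
      using (b S c h).const_mul z

variable {φ ψ : ℝ → ℂ} {a b : ℂ}

lemma E_lim (h : Tendsto φ atTop (𝓝 0)) : φ ∈ E := ⟨∅, by simp, fun S c _ => by
  simpa only [mul_zero, Finset.sum_const_zero, Function.comp_def, id] using tendsto_finset_sum S fun τ _ =>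
    (h.comp (tendsto_atTop_add_const_left atTop τ tendsto_id)).const_mul (c τ)⟩

lemma sum_ph (S : Finset ℝ) (c : ℝ → ℂ) (d : ℂ) {i M : ℕ} (h : i < M) (t : ℝ) :
    ∑ τ ∈ S, c τ * ph (d, i) (τ + t) = ∑ n ∈ Finset.range M,
      (Complex.exp (t * d) * t ^ (i - n) * i.choose n) * ∑ τ ∈ S, c τ * ph (d, n) τ := by
  simp only [ph_add d h, Finset.mul_sum, mul_left_comm (c _)]
  exact Finset.sum_comm

lemma E_ph {p : ℂ × ℕ} (h : p.1 ≠ 0) : ph p ∈ E := by
  refine ⟨{p.1} ×ˢ Finset.range (p.2 + 1), by simp [h], fun S c k => ?_⟩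
  refine tendsto_const_nhds.congr fun t => ?_
  rw [sum_ph S c p.1 (Nat.lt_succ_self p.2)]
  exact (Finset.sum_eq_zero fun n hn => by rw [k (p.1, n) (by simpa using hn), mul_zero]).symm

lemma E_shift (h : φ ∈ E) (l : ℝ) : (fun t => φ (t + l)) ∈ E :=
  let ⟨G, a, b⟩ := h
  ⟨G, a, fun S c k => by
    simpa only [Function.comp_def, add_assoc, id] using
      (b S c k).comp (tendsto_atTop_add_const_right atTop l tendsto_id)⟩

lemma E_conj (h : φ ∈ E) : (fun t => conj (φ t)) ∈ E := by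
  classical
  obtain ⟨G, a, b⟩ := h
  refine ⟨G.image fun p => (conj p.1, p.2), fun p hp => ?_, fun S c k => ?_⟩
  · obtain ⟨q, hq, rfl⟩ := Finset.mem_image.1 hp
    simpa using a q hq
  have := (Complex.continuous_conj.tendsto _).comp (b S (fun τ => conj (c τ)) fun p hp => by
    simpa only [map_sum, map_mul, ph_conj, Complex.conj_conj, map_zero] using
      congrArg conj (k _ (Finset.mem_image_of_mem _ hp)))
  simpa only [Function.comp_def, map_sum, map_mul, Complex.conj_conj, map_zero] using this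

lemma E_poly {P : ℂ[X]} (h : (fun t : ℝ => P.eval (t : ℂ)) ∈ E) : P = 0 := by
  classical
  obtain ⟨G, a, b⟩ := h
  obtain ⟨S, c, hc⟩ := vd (G ∪ {0} ×ˢ Finset.range (P.natDegree + 1)) (0, P.natDegree)
  have h1 := b S c fun p hp => by
    rw [hc p (Finset.mem_union_left _ hp), if_neg fun e => a p hp (congrArg Prod.fst e)]
  have h2 : ∀ t : ℝ, ∑ τ ∈ S, c τ * P.eval ((τ + t : ℝ) : ℂ) = P.leadingCoeff := fun t => by
    have e : ∀ i, ((i : ℕ) ∈ Finset.range (P.natDegree + 1)) →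
        ∑ τ ∈ S, c τ * ph (0, i) (τ + t) = if i = P.natDegree then 1 else 0 := fun i hi => by
      rw [sum_ph S c 0 (Finset.mem_range.1 hi), Finset.sum_eq_single P.natDegree
        (fun n hn h0 => by
          rw [hc _ (Finset.mem_union_right _ (by simpa using hn)), if_neg (by simpa using h0),
            mul_zero]) (by simp), hc _ (Finset.mem_union_right _ (by simp)), if_pos rfl]
      split_ifs with h
      · simp [h]
      · rw [Nat.choose_eq_zero_of_lt (lt_of_le_of_ne (Nat.lt_succ_iff.1 (Finset.mem_range.1 hi)) h)]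
        simp
    have e2 : ∀ (i : ℕ) (x : ℝ), (x : ℂ) ^ i = ph (0, i) x := fun i x => by simp [ph]
    simp only [eval_eq_sum_range, Finset.mul_sum, e2, mul_left_comm (c _)]
    rw [Finset.sum_comm, Finset.sum_congr rfl fun i hi => by rw [← Finset.mul_sum, e i hi]]
    simp
  simp only [h2] at h1
  exact leadingCoeff_eq_zero.1 (tendsto_nhds_unique tendsto_const_nhds h1)

/-- `a` is the marginal constant of `φ` -/
def ap (φ : ℝ → ℂ) (a : ℂ) : Prop :=
  ∃ P : ℂ[X], P.eval 0 = a ∧ (fun t : ℝ => φ t - P.eval (t : ℂ)) ∈ E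

lemma ap.const (a : ℂ) : ap (fun _ => a) a := 
  ⟨C a, eval_C, E_lim (by simpa using tendsto_const_nhds)⟩

lemma ap.add (h : ap φ a) (k : ap ψ b) : ap (fun t => φ t + ψ t) (a + b) := by
  obtain ⟨P, rfl, h⟩ := h
  obtain ⟨P', rfl, k⟩ := k
  refine ⟨P + P', eval_add, (congrArg (· ∈ E) (funext fun t => ?_)).mp (E.add_mem h k)⟩
  simp only [Pi.add_apply, eval_add]
  ring

lemma ap.mul (z : ℂ) (h : ap φ a) : ap (fun t => z * φ t) (z * a) := by
  obtain ⟨P, rfl, h⟩ := h
  refine ⟨C z * P, eval_C_mul, (congrArg (· ∈ E) (funext fun t => ?_)).mp (E.smul_mem z h)⟩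
  simp only [Pi.smul_apply, eval_C_mul, smul_eq_mul, mul_sub]

lemma ap.neg (h : ap φ a) : ap (fun t => -φ t) (-a) := by
  simpa only [neg_one_mul] using h.mul (-1)

lemma ap.sub (h : ap φ a) (k : ap ψ b) : ap (fun t => φ t - ψ t) (a - b) := by
  simpa only [sub_eq_add_neg] using h.add k.neg

lemma ap.sum {ι : Type*} (s : Finset ι) {φ : ι → ℝ → ℂ} {a : ι → ℂ} (h : ∀ i, ap (φ i) (a i)) :
    ap (fun t => ∑ i ∈ s, φ i t) (∑ i ∈ s, a i) := by
  classical
  induction s using Finset.induction_on with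
  | empty => simpa using ap.const 0
  | insert i s hi ih => simpa only [Finset.sum_insert hi] using (h i).add ih

lemma ap.conj (h : ap φ a) : ap (fun t => conj (φ t)) (conj a) := by
  obtain ⟨P, rfl, h⟩ := h
  have e : ∀ t : ℝ, (P.map conj).eval (t : ℂ) = conj (P.eval (t : ℂ)) := fun t => by
    rw [← Complex.conj_ofReal t, eval_map, eval₂_at_apply, Complex.conj_ofReal]
  refine ⟨P.map conj, by simpa using e 0, (congrArg (· ∈ E) (funext fun t => ?_)).mp (E_conj h)⟩
  rw [map_sub, e]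

lemma ap.eq (h : ap φ a) (k : ap ψ b) (e : ∀ t, φ t = ψ t) : a = b := by
  obtain ⟨P, h1, h2⟩ := h.sub k
  simp only [e, sub_self, zero_sub] at h2
  rw [← sub_eq_zero, ← h1, E_poly (P := P) (E.neg_mem_iff.1 h2), eval_zero]

lemma ap.shift {P : ℂ[X]} (h : (fun t : ℝ => φ t - P.eval (t : ℂ)) ∈ E) (l : ℝ) :
    ap (fun t => φ (t + l)) (P.eval (l : ℂ)) :=
  ⟨P.comp (X + C (l : ℂ)), by simp, by simpa using E_shift h l⟩

end

end Vale.Agent.P352AA
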