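import Vale.Agent.P352AA.S0
import Vale.Agent.P352AA.Ee

/-!
# P352AA: the marginal parts of fields
-/

set_option linter.all false

open Filter Topology Polynomial
open scoped ComplexConjugate

namespace Vale.Agent.P352AA

open Vale.Agent.P352 Vale.Agent.P352.GF Vale.Agent.P352.BW Vale.Agent.P352.H246
open Vale.Agent.P352.H496 Vale.Agent.P352.H755 Vale.Agent.P352.H15
open Vale.Agent.P352X Vale.Agent.P352X.Fss Vale.Agent.P352Z
open Vale.Agent.P352X.ZZ.S0 hiding ue_ue ue_zero ue_neg neg_ue ue_adj dw_law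
open Vale.Agent.P352X.CL (ph)
open G (M1)

noncomputable section

variable {D : Type*} [NormedAddCommGroup D] [InnerProductSpace ℂ D] {Q : Theory D}
  {A : (V → V) → D → D} {B Y Y' : Fld D} {f g : Fn} {κ s t r z : ℝ} {T S : Ix → Ix → Fld D}
  {J K : Ix → Fld D} {X X' : ℝ → Fld D}

section
variable (R : M1 Q)
include R

lemma ue_ue (s t : ℝ) (v : D) : ue Q s (ue Q t v) = ue Q (s + t) v := by
  refine (R _ _ 0 _ _ 0 v (Real.exp_pos s) (Real.exp_pos t) H496.isLor_one
    H496.isLor_one (.inl rfl)).trans ?_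
  simp only [sim_dil, zero_add, one_smul, smul_zero, ← Real.exp_add]
  rfl

lemma ue_zero (v : D) : ue Q 0 v = v := by
  rw [← sub_eq_zero, ← inner_self_eq_zero (𝕜 := ℂ), ← ue_inner 0, map_sub, ue_ue R, add_zero,
    sub_self, inner_zero_left]

lemma ue_adj (t : ℝ) (v w : D) : inner ℂ w (ue Q (-t) v) = inner ℂ (ue Q t w) v := by
  rw [← ue_inner t, ue_ue R, add_neg_cancel, ue_zero R]

lemma dw_law (κ t : ℝ) (B : Fld D) (g : Fn) (v : D) : B g (ue Q t v) =
    (Real.exp (κ * t) : ℂ) • ue Q t (dw Q κ t B (de t g) v) := by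
  simp only [dw, map_smul, ue_ue R, de_de, smul_smul, ← Complex.ofReal_mul, ← Real.exp_add,
    add_neg_cancel, neg_add_cancel, ue_zero R, de_zero, Real.exp_zero, Complex.ofReal_one, one_smul]

lemma dw_dw (κ t l : ℝ) (B : Fld D) (g : Fn) (v : D) :
    dw Q κ (t + l) B g v = dw Q κ l (dw Q κ t B) g v := by
  simp only [dw, map_smul, ue_ue R, de_de, smul_smul, ← Complex.ofReal_mul, ← Real.exp_add]
  rw [show -l + -t = -(t + l) by ring, show -t + -l = -(t + l) by ring,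
    show -(κ * l) + -(κ * t) = -(κ * (t + l)) by ring]

lemma bdw (h : Clo Q) (κ t : ℝ) (hB : Q.bose B) : Q.bose (dw Q κ t B) := by
  have hs := Real.exp_pos (-t)
  refine h.bcg (h.bsmul _ (h.bos _ (h.dil _ _ hs (Q.bose_fld _ hB)) fun E f g v hE hf hg k => ?_))
    fun f v _ => dw_dl κ t B f v
  have := Q.loc B _ _ _ (u Q _ (inv_pos.2 hs) v) hB (h.dil E _ (inv_pos.2 hs) hE)
    (ds_test hs hf) (ds_test hs hg) (sep_ds hs k)
  simp only [Fss.dl, ds_inv hs, inv_inv, G.u_inv R] at this ⊢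
  rw [this, G.u_inv R]

end

/-- `Y` is the marginal part of the family `X` -/
def Mf (X : ℝ → Fld D) (Y : Fld D) : Prop :=
  ∀ f v w, IsTest f → ap (fun t => inner ℂ w (X t f v)) (inner ℂ w (Y f v))

/-- the marginal chain of `B` -/
structure Mg (Q : Theory D) (κ : ℝ) (B Y : Fld D) (F : Finset (ℂ × ℕ)) (Z : ℂ × ℕ → Fld D) :
    Prop where
  bose : ∀ p, Q.bose (Z p)
  dim : ∀ p ∈ F, p.1 = 4 - κ
  mf : Mf (fun t => dw Q κ t B) Y
  alt : Q.bose Y ∨ Y = fun _ _ => 0
  law : ∀ (l : ℝ) f v, IsTest f → dw Q κ l Y f v = ∑ p ∈ F, (l : ℂ) ^ p.2 • Z p f v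

theorem marg (R : M1 Q) {k : ℝ} (hk : k = 4 - κ) (h : Asy Q k B) : ∃ Y F Z, Mg Q κ B Y F Z := by
  classical
  obtain ⟨F, Z, hZ, h⟩ := h
  let F' := F.filter fun p => p.1 = (4 - κ : ℂ)
  let P : Fn → D → D → ℂ[X] := fun f v w => ∑ p ∈ F', C (inner ℂ w (Z p f v)) * X ^ p.2
  have eP : ∀ f v w (l : ℂ), (P f v w).eval l = inner ℂ w (∑ p ∈ F', l ^ p.2 • Z p f v) :=
    fun f v w l => by simp only [P, eval_finset_sum, eval_mul, eval_C, eval_pow, eval_X, inner_sum,
      inner_smul_right, mul_comm]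
  have ex : ∀ (t : ℝ) (a : ℂ), ((Real.exp t : ℝ) : ℂ) ^ a = Complex.exp (t * a) := fun t a => by
    rw [Complex.cpow_def_of_ne_zero (Complex.ofReal_ne_zero.2 (Real.exp_pos _).ne'),
      ← Complex.ofReal_log (Real.exp_pos _).le, Real.log_exp]
  have h1 : ∀ f v w, IsTest f →
      (fun t : ℝ => inner ℂ w (dw Q κ t B f v) - (P f v w).eval (t : ℂ)) ∈ E := fun f v w hf => by
    have := E.add_mem (E_lim ((h f v w hf).comp Real.tendsto_exp_atTop))
      (E.sum_mem (t := F.filter fun p => ¬p.1 = (4 - κ : ℂ)) fun p hp => E.smul_mem (inner ℂ w (Z p f v))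
        (E_ph (p := (4 - κ - p.1, p.2)) fun e =>
          (Finset.mem_filter.1 hp).2 (sub_eq_zero.1 e).symm))
    refine (congrArg (· ∈ E) (funext fun t => ?_)).mp this
    have e : ∑ p ∈ F', Complex.exp (t * (4 - κ - p.1)) * (t : ℂ) ^ p.2 * inner ℂ w (Z p f v) =
        (P f v w).eval (t : ℂ) := by
      rw [eP, inner_sum]
      exact Finset.sum_congr rfl fun p hp => by
        simp [(Finset.mem_filter.1 hp).2, inner_smul_right]
    simp only [Pi.add_apply, Function.comp, Finset.sum_apply, Pi.smul_apply, smul_eq_mul, ex,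
      Real.log_exp, hk, Complex.ofReal_sub, Complex.ofReal_ofNat, ph]
    rw [← Finset.sum_filter_add_sum_filter_not F fun p => p.1 = (4 - κ : ℂ), e, dw, inner_smul_right,
      ue_adj R, ← Real.exp_neg, Complex.ofReal_exp, show (t : ℂ) * (4 - κ - 4) = (-(κ * t) : ℝ) by
        push_cast; ring]
    simp only [mul_comm (inner ℂ w _)]
    rw [sub_add_eq_sub_sub, sub_add_cancel]
    rfl
  let Y : Fld D := if ((4 - κ : ℂ), 0) ∈ F then Z (4 - κ, 0) else fun _ _ => 0
  have hY : ∀ f v, ∑ p ∈ F', (0 : ℂ) ^ p.2 • Z p f v = Y f v := fun f v => by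
    have z : ∀ p ∈ F', p ≠ ((4 - κ : ℂ), 0) → (0 : ℂ) ^ p.2 • Z p f v = 0 := fun p hp e => by
      rw [zero_pow fun k => e (Prod.ext (Finset.mem_filter.1 hp).2 k), zero_smul]
    by_cases e : ((4 - κ : ℂ), 0) ∈ F
    · rw [Finset.sum_eq_single_of_mem (s := F') _ (Finset.mem_filter.2 ⟨e, rfl⟩) z]
      simp [Y, e]
    · rw [Finset.sum_eq_zero fun p hp => z p hp fun k => e (k ▸ (Finset.mem_filter.1 hp).1)]
      simp [Y, e]
  have hM : Mf (fun t => dw Q κ t B) Y := fun f v w hf => ⟨_, by rw [eP, hY], h1 f v w hf⟩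
  refine ⟨Y, F', Z, hZ, fun p hp => (Finset.mem_filter.1 hp).2, hM, ?_, fun l f v hf =>
    ext_inner_left ℂ fun w => ?_⟩
  · by_cases e : ((4 - κ : ℂ), 0) ∈ F <;> simp [Y, e, hZ]
  · rw [← eP, dw, inner_smul_right, ue_adj R]
    refine ((hM _ _ _ (de_test _ hf)).mul _).eq (ap.shift (h1 f v w hf) l) fun t => ?_
    rw [dw_dw R, dw, inner_smul_right, ue_adj R]

lemma Mg.scl (R : M1 Q) {F Z} (h : Mg Q κ B Y F Z) : Scl (clo Q) Y F Z := by
  have b := fun p => (clo_enl Q).bose _ (h.bose p)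
  refine ⟨fun p => ⟨b p |>.1, fun _ => b p⟩, fun s f v hs hf => ?_⟩
  obtain ⟨t, rfl⟩ : ∃ t, Real.exp t = s := ⟨_, Real.exp_log hs⟩
  refine (dw_law R κ t Y f v).trans ?_
  rw [h.law _ _ _ (de_test t hf), map_sum, Finset.smul_sum]
  refine Finset.sum_congr rfl fun p hp => ?_
  rw [map_smul, smul_smul, h.dim p hp, sub_sub_cancel, Real.log_exp, ← Complex.ofReal_cpow
    (Real.exp_pos t).le, ← Real.exp_mul, mul_comm κ]
  rfl

lemma Mg.bY {F Z} (h : Mg Q κ B Y F Z) (hC : Clo (clo Q)) : (clo Q).bose Y :=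
  h.alt.elim ((clo_enl Q).bose _) fun e => e ▸ hC.bzero

/-! ### identities pass to the marginal parts -/

lemma Mf.cg (h : Mf X Y) (e : ∀ f v, IsTest f → Y' f v = Y f v) : Mf X Y' :=
  fun f v w hf => e f v hf ▸ h f v w hf

lemma Mf.herm (h : Mf X Y) (e : ∀ t, Ad (X t) (X t)) : Ad Y Y := fun f v w hf => by
  rw [← inner_conj_symm]
  exact (h f v w hf).conj.eq (h _ w v (Ap.test_bar hf)) fun t => by
    rw [inner_conj_symm, e t f v w hf]

lemma Mf.cov {ι : Type*} [Fintype ι] {ρ : ι → ℂ} {Φ : ι → ℝ → Fld D} {Ψ : ι → Fld D} {U : D → D}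
    (hU : ∀ v w, inner ℂ (U v) (U w) = inner ℂ v w) (hd : DenseRange U) (h : Mf X Y)
    (k : ∀ i, Mf (Φ i) (Ψ i)) (hf : IsTest f) (hg : IsTest g) {v : D}
    (e : ∀ t, X t f (U v) = ∑ i, ρ i • U (Φ i t g v)) : Y f (U v) = ∑ i, ρ i • U (Ψ i g v) := by
  refine ext_inner_left ℂ fun w => hd.induction_on w (isClosed_eq (by fun_prop) (by fun_prop))
    fun w => ?_
  simp only [inner_sum, inner_smul_right, hU]
  exact (h f _ _ hf).eq (ap.sum _ fun i => (k i g v w hg).mul (ρ i)) fun t => by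
    simp only [e, inner_sum, inner_smul_right, hU]

lemma Mf.zero {ι : Type*} [Fintype ι] {ρ : ι → ℂ} {Φ : ι → ℝ → Fld D} {Ψ : ι → Fld D} {f : ι → Fn}
    (k : ∀ i, Mf (Φ i) (Ψ i)) (hf : ∀ i, IsTest (f i)) {v : D}
    (e : ∀ t, ∑ i, ρ i • Φ i t (f i) v = 0) : ∑ i, ρ i • Ψ i (f i) v = 0 :=
  ext_inner_left ℂ fun w => by
    simp only [inner_sum, inner_smul_right, inner_zero_right]
    exact (ap.sum _ fun i => (k i _ v w (hf i)).mul (ρ i)).eq (ap.const 0) fun t => by
      simpa only [inner_sum, inner_smul_right, inner_zero_right] using congrArg (inner ℂ w) (e t)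

/-- the commutators of `Z` with `B f` depend on the test function near the causal hull only -/
def Lc (B : Fld D) (f : Fn) (Z : Fld D) : Prop := ∀ g g' v, IsTest g → IsTest g' →
  (∀ h : Fn, (∀ x, g x = g' x → h x = 0) → Sep h f) → cm Z g B f v = cm Z g' B f v

lemma Mf.ch (h : Mf X Y) {F : ℝ → Fn} (hF : IsCutoff F) (hB : Q.fld B) (hf : IsTest f)
    (hc : HasCompactSupport f) (l1 : ∀ t, Lc B f (X t)) (l2 : Lc B f Y) {v w : D} {y : ℂ}
    (e : ∀ t, Tendsto (fun r => inner ℂ w (cm (X t) (F r) B f v)) atTop (𝓝 y)) :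
    Tendsto (fun r => inner ℂ w (cm Y (F r) B f v)) atTop (𝓝 y) := by
  obtain ⟨r0, p, hr0⟩ := far hF hc
  have ht : ∀ r, r0 ≤ r → IsTest (F r) := fun r hr =>
    let ⟨_, _, _, _, _, _, h⟩ := hF; (h r (p.trans_le hr)).1
  have e1 : ∀ Z, Lc B f Z → (fun _ => inner ℂ w (cm Z (F r0) B f v)) =ᶠ[atTop]
      fun r => inner ℂ w (cm Z (F r) B f v) := fun Z l => (eventually_ge_atTop r0).mono
    fun r hr => by simp only [l _ _ v (ht r hr) (ht r0 le_rfl) (hr0 r r0 hr le_rfl)]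
  obtain ⟨B', -, b⟩ := Q.adj B hB
  have b1 : ∀ x y, inner ℂ x (B f y) = inner ℂ (B' (bar f) x) y := fun x y => by
    rw [← inner_conj_symm, b f y x hf, inner_conj_symm]
  refine Tendsto.congr' (e1 Y l2) ?_
  simp only [cm, inner_sub_right, b1] at *
  rw [((h _ _ _ (ht r0 le_rfl)).sub (h _ _ _ (ht r0 le_rfl))).eq (ap.const y) fun t =>
    tendsto_nhds_unique (tendsto_const_nhds.congr' (e1 _ (l1 t))) (e t)]
  exact tendsto_const_nhds

variable {ξ : V → V}

lemma lc_cur (hT : ∀ m n, Q.bose (T m n)) (hJ : ∀ m, Q.bose (J m)) (hB : Q.fld B) (hf : IsTest f)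
    (hX : IsSim r ξ) : Lc B f (curV T J r ξ) := fun g g' v hg hg' h => by
  have e1 := fun n => cm_eq (hT o n) hB hf (test_simr hX hg n) (test_simr hX hg' n)
    (h _ fun x e => by rw [e, sub_self]) v
  have e2 := cm_eq (hJ o) hB hf hg hg' (h _ fun x e => sub_eq_zero.2 e) v
  have e : ∀ g, cm (curV T J r ξ) g B f v = ∑ n, cm (T o n) (fun x => (eta n : ℂ) * ξ x n * g x)
      B f v - (r : ℂ) • cm (J o) g B f v := fun g => by
    simp only [cm, curV, ND.cur, ← fl_apply hB hf, map_sub, map_sum, map_smul, smul_sub,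
      Finset.sum_sub_distrib]
    abel
  simp only [e, e1, e2]

lemma mf_cur {T' : ℝ → Ix → Ix → Fld D} {J' : ℝ → Ix → Fld D}
    (hT : ∀ m n, Mf (T' · m n) (T m n)) (hJ : ∀ m, Mf (J' · m) (J m)) (hX : IsSim r ξ) :
    Mf (fun t => curV (T' t) (J' t) r ξ) (curV T J r ξ) := fun g v w hg => by
  simp only [curV, ND.cur, inner_sub_right, inner_sum, inner_smul_right]
  exact (ap.sum _ fun n => hT o n _ v w (test_simr hX hg n)).sub ((hJ o g v w hg).mul r)

section
variable {T' : ℝ → Ix → Ix → Fld D} (hT : ∀ m n, Mf (T' · m n) (S m n)) (hf : IsTest f) {v : D}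
include hT hf

lemma mf_symm {m n : Ix} (e : ∀ t, T' t m n f v = T' t n m f v) : S m n f v = S n m f v :=
  ext_inner_left ℂ fun w => (hT m n f v w hf).eq (hT n m f v w hf) fun t => congrArg _ (e t)

lemma mf_cov {m n : Ix} {L : Ix → V} {a : V} (hL : IsLor L) (hd : DenseRange (Q.U 1 L a))
    (e : ∀ t, T' t m n f (Q.U 1 L a v) =
      ∑ k, ∑ l, (L k m * L l n : ℂ) • Q.U 1 L a (T' t k l (fun x => f (sim 1 L a x)) v)) :
    S m n f (Q.U 1 L a v) =
      ∑ k, ∑ l, (L k m * L l n : ℂ) • Q.U 1 L a (S k l (fun x => f (sim 1 L a x)) v) := by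
  simp only [← Fintype.sum_prod_type'] at e ⊢
  exact (hT m n).cov (fun v w => Q.U_inner _ _ _ v w one_pos hL) hd (fun p : Ix × Ix => hT p.1 p.2)
    hf (Ap.test_sim one_pos hL a hf) e

lemma mf_cons {n : Ix} (e : ∀ t, ∑ m, T' t m n (pd m f) v = 0) : ∑ m, S m n (pd m f) v = 0 := by
  simpa only [one_smul] using Mf.zero (ρ := fun _ => 1) (fun m => hT m n)
    (fun m => Ap.test_pd m hf) fun t => by simpa only [one_smul] using e t

end

theorem sv_marg (hC : Clo Q) (R : Rep Q A) (h : SV z Q T J A) (b1 : ∀ m n, Q.bose (S m n))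
    (b2 : ∀ m, Q.bose (K m)) (hT : ∀ m n, Mf (fun t => dw Q 0 t (T m n)) (S m n))
    (hJ : ∀ m, Mf (fun t => dw Q 1 t (J m)) (K m)) : SV z Q S K A := by
  have d := h.dil hC R
  have hd : ∀ L a, IsLor L → DenseRange (Q.U 1 L a) := fun L a hL =>
    Function.Surjective.denseRange fun v => ⟨_, ue_inv R one_pos hL a v⟩
  refine ⟨b1, fun m n => (hT m n).herm fun t => (d t).hT m n, fun m n L a f v hL hf =>
    mf_cov hT hf hL (hd L a hL) fun t => (d t).cT m n L a f v hL hf, b2,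
    fun m L a f v hL hf => (hJ m).cov (fun v w => Q.U_inner _ _ _ v w one_pos hL) (hd L a hL) hJ hf
      (Ap.test_sim one_pos hL a hf) fun t => (d t).cJ m L a f v hL hf,
    fun m n f v hf => mf_symm hT hf fun t => (d t).symm m n f v hf,
    fun n f v hf => mf_cons hT hf fun t => (d t).conserved n f v hf,
    fun f v hf => ext_inner_left ℂ fun w => ?_, fun F r ξ B f v w hF hX hB hf hc =>
      (mf_cur hT hJ hX).ch hF hB hf hc (fun t => lc_cur (d t).bT (d t).bJ hB hf hX)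
        (lc_cur b1 b2 hB hf hX) fun t => (d t).sch F r ξ B f v w hF hX hB hf hc⟩
  simp only [GF.tr, inner_sum, inner_smul_right, inner_neg_right]
  exact (ap.sum _ fun m => (hT m m f v w hf).mul _).eq
    (ap.sum _ fun m => hJ m _ v w (Ap.test_pd m hf)).neg fun t => by
      simpa only [GF.tr, inner_sum, inner_smul_right, inner_neg_right] using
        congrArg (inner ℂ w) ((d t).div f v hf)

theorem st_marg (R : M1 Q) (hC : Cv Q) (hd : ∀ L a, IsLor L → DenseRange (Q.U 1 L a))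
    (h : Stress0 Q T) (b : ∀ m n, Q.bose (S m n))
    (hT : ∀ m n, Mf (fun t => dw Q 0 t (T m n)) (S m n)) :
    Stress0 Q S ∧ ∀ A, Der Q A → ND.PCh Q T A → ND.PCh Q S A := by
  have e : ∀ t B, dw Q 0 t B = dl Q _ (Real.exp_pos (-t)) B := fun t B => by
    funext f v
    simp [dw_dl]
  have en := clo_enl Q
  have b' := fun m n => en.bose _ (b m n)
  have bd : ∀ t m n, (clo Q).bose (dw Q 0 t (T m n)) := fun t m n =>
    bdw (Q := clo Q) R (clo_clo R hC) 0 t (en.bose _ (h.bose m n))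
  have lc : ∀ {B Z f}, Q.fld B → IsTest f → (clo Q).bose Z → Lc B f Z :=
    fun hB hf hZ g g' v hg hg' k =>
      cm_eq hZ (en.fld _ hB) hf hg hg' (k _ fun x e => sub_eq_zero.2 e) v
  refine ⟨⟨b, fun m n f v hf => mf_symm hT hf fun t => ?_, fun m n => (hT m n).herm
    fun t f v w hf => ?_, fun m n L a f v hL hf => mf_cov hT hf hL (hd L a hL) fun t => ?_,
    fun n f v hf => mf_cons hT hf fun t => ?_, fun F n B f v w hF hB hf hc =>
      (hT o n).ch hF hB hf hc (fun t => lc hB hf (bd t o n)) (lc hB hf (b' o n)) fun t => ?_⟩,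
    fun A hA hP F ξ B f v w hF hX hB hf hc => ?_⟩
  · simp only [dw, h.symm m n _ _ (de_test _ hf)]
  · simp only [e, G.dl_herm R h _ m n hf]
  · simp only [e, G.dl_cov R h _ m n hL a hf]
  · simp only [e, G.dl_cons R h _ n hf]
  · obtain ⟨_, _, _, k⟩ := ky R hC (Real.exp_pos (-t)) hB
    rw [e]
    exact charge R h _ k hF n hf hc v w
  · have := (mf_cur hT (hT o) hX).ch hF hB hf hc
      (fun t => lc_cur (bd t) (bd t o) (en.fld _ hB) hf hX) (lc_cur b' (b' o) (en.fld _ hB) hf hX)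
      (v := v) (w := w) fun t => by
        obtain ⟨_, _, _, k⟩ := ky R hC (Real.exp_pos (-t)) hB
        simpa [cm, curV, e] using pch R h _ hA hP k hF hX hf hc v w
    simpa [cm, curV] using this

lemma stress_of (R : M1 Q) (h : Stress0 Q S)
    (d : ∀ m n l f v, IsTest f → dw Q 0 l (S m n) f v = S m n f v) : Q.IsStress S := by
  refine ⟨h.bose, h.symm, h.herm, fun m n s L a f v hs hL hf => ?_, h.conserved, h.charge⟩
  obtain ⟨t, rfl⟩ : ∃ t, Real.exp t = s := ⟨_, Real.exp_log hs⟩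
  have t1 := Ap.test_sim one_pos hL a hf
  rw [← (G.U_dil R hs hL a v).2, h.cov m n L a f _ hL hf]
  refine Finset.sum_congr rfl fun k _ => Finset.sum_congr rfl fun l _ => ?_
  rw [show u Q _ hs v = ue Q t v from rfl, dw_law R 0 t (S k l), d _ _ _ _ _ (de_test t t1), zero_mul,
    Real.exp_zero, Complex.ofReal_one, one_smul, ← (G.U_dil R hs hL a _).2,
    show de t (fun x => f (sim 1 L a x)) = fun x => f (sim (Real.exp t) L a x) from
      funext fun x => by
        rw [de_apply]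
        simp only [N86.c1_sim _ L a, simL_smul, one_smul]]
  rfl

end

end Vale.Agent.P352AA
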