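import Vale.Agent.P352AA.G3
import Vale.Agent.P352X.CL.W
import Vale.Agent.P352X.EH.DS

/-!
# P352AA: conformal invariance from a virial current without curl
-/

set_option linter.all false

namespace Vale.Agent.P352AA

open Vale.Agent.P352 Vale.Agent.P352.GF Vale.Agent.P352.BW Vale.Agent.P352.H246
open Vale.Agent.P352.H496 Vale.Agent.P352.H755 Vale.Agent.P352.H15
open P352X P352X.CA.G CL Fss.G
open P352X.CA (GM MixC mix_of gm_of)
open UniformSpace (Completion)

noncomputable section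

variable {D : Type*} [NormedAddCommGroup D] [InnerProductSpace ℂ D]

theorem conf_of (c : Cx D) (h : Tl c) {T : Ix → Ix → Fld D} {J : Ix → Fld D}
    (e : c.t = improveJ T J) (hT : c.Q.IsStress T) (hJ : IsVirial c.Q T J)
    (hI : IsImpr c.Q T (improveJ T J)) : Conf c.Q c.G T J := by
  obtain ⟨x, f0, a⟩ := all_thm c
  exact ⟨hT, hJ, hI, e ▸ conf_act c.hT, e ▸ cfs' a h,
    fun p k Φ μ h1 h2 h3 => e ▸ descM a h p k Φ μ h2 h1 h3⟩

/-- the trivial grading -/
theorem conf_id {Q : Theory D} {T : Ix → Ix → Fld D} {J : Ix → Fld D} (hT : Q.IsStress T)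
    (hJ : IsVirial Q T J) (hI : IsImpr Q T (improveJ T J)) (g : GM Q) : Conf Q id T J := by
  let c : Cx D := ⟨Q, _, id, isT_of_impr hI hT,
    fun m n k l f g v hf hg h => sub_eq_zero.1 (hI.self m n k l f g v hf hg h), hI.cov,
    ⟨_, hT.bose o o⟩, fun _ => rfl, fun _ _ => rfl, fun _ _ _ _ _ => rfl, fun _ _ _ _ _ _ => rfl,
    fun C hC => ⟨1, fun _ => 1, fun _ => C, fun _ => hC, fun g v _ => by simp⟩,
    fun s L a s' L' a' hs hs' hL hL' => .inl fun v => g.mul s L a s' L' a' v hs hs' hL hL',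
    fun F w _ => g.mix w _⟩
  refine conf_of c (fun A B hA hB h => ?_) rfl hT hJ hI
  have e1 : ∀ f v, IsTest f → A f v = 0 := fun f v hf =>
    (smul_eq_zero.1 ((two_smul ℂ _).trans (add_eq_zero_iff_eq_neg.2 (hA.2 f v hf)))).resolve_left
      two_ne_zero
  have e2 : ∀ f v, IsTest f → B f v = 0 := fun f v hf => ext_inner_right ℂ fun w => by
    rw [H755.adj_symm h f v w hf, e1 _ _ (isTest_bar hf), inner_zero_left, inner_zero_right]
  have z := (clm_row c).zero
  exact ⟨(clm_row c).cg 0 0 _ _ z.toC0 (fun f v hf => e1 f v hf.1) fun f v hf => e2 f v hf.1,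
    fun y f v hf => Q.transl A y f v hA.1 hf.1, fun y f v hf => Q.transl B y f v hB hf.1⟩

variable {D' : Type*} [NormedAddCommGroup D'] [InnerProductSpace ℂ D'] {Q : Theory D}
  {Q' : Theory D'} {i : D →ₗᵢ[ℂ] D'} {A : (V → V) → D → D}

/-- theories with fermions -/
theorem conf_gr (h : Sect Q Q' i) (R : Rep Q A) (m : MixC Q) {G : D' → D'} (g : Gr Q' G)
    {T : Ix → Ix → Fld D} {T' : Ix → Ix → Fld D'} (hT : Q'.IsStress T')
    (hx : ∀ m n, Xt i (T m n) (T' m n)) {J : Ix → Fld D} (hJ : IsVirial Q T J)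
    (hc : Curl J Q.vac) : ∃ J', (∀ m, Xt i (J m) (J' m)) ∧ Conf Q' G T' J' := by
  obtain ⟨J', h1, h2, h3, -⟩ := FE.fe h hT hx hJ hc
  let L : D' →ₗ[ℂ] D' :=
    { toFun := G
      map_add' := fun v w => ext_inner_right ℂ fun y => by simp only [g.herm, inner_add_left]
      map_smul' := fun z v => ext_inner_right ℂ fun y => by
        simp only [g.herm, inner_smul_left, RingHom.id_apply] }
  let c : Cx D' := ⟨Q', _, G, isT_of_impr h3 hT,
    fun m n k l f g v hf hg h => sub_eq_zero.1 (h3.self m n k l f g v hf hg h), h3.cov,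
    ⟨_, hT.bose o o⟩, g.inv, g.herm, fun m n f v hf => by
      show _ = L _
      simp only [improveJ, map_add, map_sub, map_smul, map_sum, g.bose _ _ v (hT.bose m n) hf,
        fun k l => g.bose _ _ v (h2.bose k) (Ap.test_pd l hf)]
      rfl, g.GU,
    fun C hC => by
      obtain ⟨C1, C2, a1, a2, e⟩ := g.split C hC
      refine ⟨2, ![1, -1], ![C1, C2], fun j => ?_, fun k v hk => ?_⟩
      · fin_cases j
        exacts [Q'.bose_fld _ a1, a2.1]
      · rw [e k _ hk, g.bose C1 k v a1 hk, a2.2 k v hk, show G _ = L _ from rfl, map_add, map_neg]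
        simp [L, g.inv],
    g.mul, fun F w hF => by
      have e : smt (improveJ T' J') F Q'.vac = i (smt (improveJ T J) F Q.vac) := by
        simp only [smt, improveJ, map_sum, map_add, map_sub, map_smul, h.vac,
          fun m n => hx m n _ Q.vac (hF m n).isTest,
          fun m n k l => h1 k _ Q.vac (Ap.test_pd l (hF m n).isTest)]
      rw [e]
      exact mix_sect h R m _ w⟩
  exact ⟨J', h1, conf_of c (fun A B => clf c g) rfl hT h2 h3⟩

theorem conf_all (Q : Theory D) (T : Ix → Ix → Fld D) (A : (V → V) → D → D) (hA : ND.PCh Q T A)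
    (hG : TfGen Q) (N : Set V → VonNeumannAlgebra (Completion D)) (hN : LNm Q A N) (hU : L.UVac Q)
    (hT : Q.IsStress T) {J : Ix → Fld D} (hJ : IsVirial Q T J) (hc : Curl J Q.vac) :
    (∀ Q' : Theory D, IsEnl Q Q' → Conf Q' id T J) ∧ ∀ (Q' : Theory D') i G T',
      Sect Q Q' i → Gr Q' G → Q'.IsStress T' → (∀ m n, Xt i (T m n) (T' m n)) →
      ∃ J', (∀ m, Xt i (J m) (J' m)) ∧ Conf Q' G T' J' := by
  have m := mix_of Q T hT A hA hG N hN hU
  refine ⟨fun Q' hE => ?_, fun Q' i G T' h g hT' hx => conf_gr h hN.toRep m g hT' hx hJ hc⟩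
  have hT' := H746.isStress_enl hE hT
  have hJ' := H731.enl_virial hE hJ
  exact conf_id hT' hJ' (H246D.impr_of_curl hT' hJ' (hE.vac ▸ hc)) ((gm_of hN.toRep m).enl hE)

end

end Vale.Agent.P352AA
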