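import Vale.Agent.P352AA.G3
import Vale.Agent.P352NA.W0
import Vale.Agent.P352NA.PF.Main
import Vale.Agent.P352NA.MOM.R1
import Vale.Agent.P352Z.S0.Cl

/-!
# P352AA: maximal theories contain a virial current without curl
-/

set_option linter.all false

noncomputable section

namespace Vale.Agent.P352AA

open Vale.Agent.P352 Vale.Agent.P352.GF Vale.Agent.P352.BW Vale.Agent.P352.H246
open Vale.Agent.P352.H496 Vale.Agent.P352.H755 Vale.Agent.P352.H15 Vale.Agent.P352X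
open Vale.Agent.P352NA Vale.Agent.P352X.ZZ.S0
open UniformSpace (Completion)

universe u

lemma afw_clo {D H : Type*} [NormedAddCommGroup D] [InnerProductSpace ℂ D] [NormedAddCommGroup H]
    [InnerProductSpace ℂ H] [CompleteSpace H] {N : Set V → VonNeumannAlgebra H} {Q : Theory D}
    (i : D →ₗ[ℂ] H) (h : AfW N Q i) : AfW N (clo Q) i := by
  intro a b y B B' f ha hb hab hB hA hf Y hY v w
  have key : ∀ {B}, Cl Q.fld B → ∃ C, Ad B C ∧ ∀ f, In (Wdg a b y) f →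
      inner ℂ (i (C (bar f) w)) (Y (i v)) = inner ℂ (i w) (Y (i (B f v))) := fun hB => by
    induction hB with
    | base k => exact let ⟨C, _, h2⟩ := Q.adj _ k
        ⟨C, h2, fun f hf => h a b y _ C f ha hb hab k h2 hf Y hY v w⟩
    | zero => exact ⟨fun _ _ => 0, fun _ _ _ _ => by simp, fun _ _ => by simp⟩
    | lin c _ _ h1 h2 =>
      obtain ⟨B', a1, b1⟩ := h1
      obtain ⟨C', a2, b2⟩ := h2
      exact ⟨fun f v => B' f v + star c • C' f v, fun f v w hf => by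
        simp only [inner_add_left, inner_add_right, inner_smul_left, inner_smul_right, a1 f v w hf,
          a2 f v w hf, starRingEnd_apply], fun f hf => by
        simp only [inner_add_left, inner_add_right, inner_smul_left, inner_smul_right, b1 f hf,
          b2 f hf, map_add, map_smul, starRingEnd_apply, star_star]⟩
    | der m _ h1 =>
      obtain ⟨B', a1, b1⟩ := h1
      exact ⟨fun f v => B' (pd m f) v, fun f v w hf => by
        simp only [a1 _ v w (Ap.test_pd m hf), pd_bar m hf], fun f hf => by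
        simp only [← b1 _ (Ap.in_pd m hf), pd_bar m hf.1]⟩
    | cg _ e h1 =>
      obtain ⟨B', a1, b1⟩ := h1
      exact ⟨B', fun f v w hf => by rw [e f v hf, a1 f v w hf], fun f hf => by
        rw [e f v hf.1, b1 f hf]⟩
  obtain ⟨C, h1, h2⟩ := key hB
  rw [← h2 f hf, show B' (bar f) w = C (bar f) w from
    ext_inner_left ℂ fun z => by rw [← hA f z w hf.1, h1 f z w hf.1]]

section sub

variable {D : Type*} [NormedAddCommGroup D] [InnerProductSpace ℂ D] {Q₀ Q : Theory D}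
  {S : Ix → Ix → Fld D}

/-- the defining fields together with the stress tensor -/
def sub (n : IsEnl Q₀ Q) (h : Q.IsStress S) : Theory D :=
  { Q with
    fld := fun B => Q₀.fld B ∨ ∃ m k, B = S m k
    bose := fun B => Q₀.bose B ∨ ∃ m k, B = S m k
    cyclic := fun W a b => Q₀.cyclic W (n.vac ▸ a) fun A f v hA => b A f v (.inl hA)
    lin := fun A f g c v hA => Q.lin A f g c v
      (hA.elim (n.fld _) fun ⟨m, k, e⟩ => e ▸ Q.bose_fld _ (h.bose m k))
    cont := fun A v hA => Q.cont A v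
      (hA.elim (n.fld _) fun ⟨m, k, e⟩ => e ▸ Q.bose_fld _ (h.bose m k))
    adj := fun A hA => hA.elim (fun a => let ⟨B, b, c⟩ := Q₀.adj A a; ⟨B, .inl b, c⟩)
      fun ⟨m, k, e⟩ => ⟨A, .inr ⟨m, k, e⟩, e ▸ h.herm m k⟩
    bose_fld := fun A hA => hA.imp_left (Q₀.bose_fld A)
    loc := fun A B f g v hA hB => Q.loc A B f g v
      (hA.elim (n.bose _) fun ⟨m, k, e⟩ => e ▸ h.bose m k)
      (hB.elim (n.fld _) fun ⟨m, k, e⟩ => e ▸ Q.bose_fld _ (h.bose m k))
    transl := fun A a f v hA => Q.transl A a f v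
      (hA.elim (n.fld _) fun ⟨m, k, e⟩ => e ▸ Q.bose_fld _ (h.bose m k)) }

variable (n : IsEnl Q₀ Q) (h : Q.IsStress S)

lemma sub_fld {B} (hB : (sub n h).fld B) : Q.fld B :=
  hB.elim (n.fld _) fun ⟨m, k, e⟩ => e ▸ Q.bose_fld _ (h.bose m k)

open CA.G in
lemma sub_mf (hM : MfAll Q₀) : MfAll (sub n h) := by
  rintro A (hA | ⟨m, k, rfl⟩)
  · obtain ⟨r, B, a, b⟩ := hM A hA
    refine ⟨r, B, fun i => ?_, b⟩
    obtain ⟨k, Φ, j, c, d⟩ := a i
    exact ⟨k, Φ, j, ⟨fun x => .inl (c.1 x), fun x L f v hL hf => by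
      have := c.2 x L f v hL hf
      rwa [← n.U] at this⟩, d⟩
  · have key : ∀ (a : Fin (4 * (4 * 1))) L f v, IsLor L → IsTest f →
        S (i1 a) (i1 (i2 a)) f (Q.U 1 L 0 v) = ∑ b : Fin (4 * (4 * 1)),
          ((L (i1 b) (i1 a) : ℂ) * (L (i1 (i2 b)) (i1 (i2 a)) *
            (1 : Matrix (Fin 1) (Fin 1) ℂ) (i2 (i2 b)) (i2 (i2 a)))) •
          Q.U 1 L 0 (S (i1 b) (i1 (i2 b)) (fun x => f (sim 1 L 0 x)) v) := fun a L f v hL hf => by
      rw [h.cov _ _ 1 L 0 f v one_pos hL hf]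
      have e : ∀ x y : Fin 1, (1 : Matrix (Fin 1) (Fin 1) ℂ) x y = 1 := fun x y => by
        rw [Fin.eq_zero x, Fin.eq_zero y, Matrix.one_apply_eq]
      rw [CA.G.sum_ic]
      refine Finset.sum_congr rfl fun p _ => ?_
      rw [CA.G.sum_ic]
      refine Finset.sum_congr rfl fun q _ => ?_
      rw [Fin.sum_univ_one, e, mul_one (_ : ℂ), CA.G.i2_ic, CA.G.i1_ic, CA.G.i1_ic]
    exact ⟨1, fun _ => S m k, fun _ => ⟨up (up EG.rp0),
      fun a : Fin (4 * (4 * 1)) => S (i1 a) (i1 (i2 a)), ic m (ic k (0 : Fin 1)),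
      ⟨fun _ => .inr ⟨_, _, rfl⟩, key⟩, by
        show S m k = S (i1 (ic m (ic k (0 : Fin 1)))) (i1 (i2 (ic m (ic k (0 : Fin 1)))))
        rw [CA.G.i2_ic, CA.G.i1_ic, CA.G.i1_ic]⟩, fun f v _ => by simp⟩

lemma sub_fsl (hF : FSL Q₀) : FSL (sub n h) := by
  intro A hA
  by_cases e : ∃ m k, A = S m k
  · obtain ⟨m, k, rfl⟩ := e
    refine ⟨{(4, 0)}, fun _ => S m k, fun _ => ⟨hA, id⟩, fun s f v hs hf => ?_⟩
    refine (h.cov m k s GF.one 0 f v hs H496.isLor_one hf).trans ?_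
    simp [GF.one, bas, ite_smul, apply_ite ((↑) : ℝ → ℂ)]
    rfl
  · obtain ⟨F, B, a, b⟩ := hF A (hA.resolve_right e)
    refine ⟨F, B, fun p => ⟨.inl (a p).1, fun c => .inl ((a p).2 (c.resolve_right e))⟩,
      fun s f v hs hf => ?_⟩
    have := b s f v hs hf
    rwa [← n.U] at this

lemma sub_tf (hG : TfGen Q₀) : TfGen (sub n h) := fun W a b =>
  hG W (n.vac ▸ a) fun k Φ μ f v c => b k Φ μ f v ⟨fun ν => .inl (c.1 ν), fun ν L f v hL hf => by
    have := c.2 ν L f v hL hf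
    rwa [← n.U] at this⟩

lemma sub_ext {D' : Submodule ℂ (Completion D)} {Q' : Theory D'} {e}
    (E : Ext0 (sub n h) Q' e) : Ext0 Q₀ Q' e := by
  have cy : ∀ w, Cyc Q₀ w → Cyc (sub n h) w := fun w c W a b =>
    c W (n.vac ▸ a) fun A f v hA => b A f v (.inl hA)
  exact ⟨fun w c => E.mem w (cy w c), E.vac.trans (congrArg ((↑) : D → Completion D) n.vac), fun s L a v hs hL =>
    (E.U s L a v hs hL).trans (by simp only [Ue, ← n.U]; rfl), fun B b => E.fld B (.inl b),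
    fun B B' b b' => E.adj B B' (.inl b) (.inl b'),
    fun B f v w b hf c => E.agree B f v w (.inl b) hf (cy w c)⟩

end sub

variable {D : Type u} [NormedAddCommGroup D] [InnerProductSpace ℂ D]

theorem fin0 (c : Ctx D) [Fact c.tp] (hM : MfAll c.Q) (hF : FSL c.Q) : EB.NA.FIN c := by
  have t := EB.e0_thm c (main c).1
  have t0 : EB.NA.N0 c := ⟨t, EB.NA.ee_thm c, hM, hF⟩
  have hc := EB.NA.cov_row t0
  have p := EB.NA.pf_row t0 hc
  exact EB.NA.fin_row ⟨t, hc,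
    EB.NA.wrd_row t hc p fun ι => EB.NA.rig_row ι, EB.NA.loc_row t hc p fun ι => EB.NA.rig_row ι⟩

theorem g3_max (c : Ctx D) [Fact c.tp] (hX : Borch c.Q c.N) : G3 c := by
  have t := EB.e0_thm c (main c).1
  obtain ⟨Q₀, n, hG, hM, hF, hX⟩ := hX
  have hS : (sub n c.hT).IsStress c.T := ⟨fun m k => .inr ⟨m, k, rfl⟩, c.hT.symm, c.hT.herm,
    c.hT.cov, c.hT.conserved, fun F k A f v w a b => c.hT.charge F k A f v w a (sub_fld n _ b)⟩
  obtain ⟨D', Q', e, L, h1, h0, h2, h3, h4, -⟩ : ∃ (D' : Submodule ℂ (Completion D))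
      (Q' : Theory D') (e : Fld D → Fld D') (L : Fld D'), Ext0 (sub n c.hT) Q' e ∧
      AfW c.N Q' (↑) ∧ Q'.IsStress (fun m n => e (c.T m n)) ∧ Q'.IsScalar L 2 ∧ (∀ f v, IsTest f →
      GF.tr (fun m n => e (c.T m n)) f v = (3 : ℂ) • L (box f) v) ∧ True := by
    obtain ⟨k, e1, e2, e3, tp⟩ := EG.Pt.ctxN (sub n c.hT) c.T c.A c.N hS
      (fun F X B f v w a b d => c.hP F X B f v w a b (sub_fld n _ d)) (sub_tf n _ hG)
      ⟨⟨c.hN.mul, c.hN.add, c.hN.der⟩, fun O B f b => c.hN.fld O B f (sub_fld n _ b), c.hN.mono,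
        c.hN.cov, c.hN.loc⟩ c.hU
    haveI : Fact k.tp := ⟨tp⟩
    obtain ⟨D', Q', e, L, h1, h0, h2, h3, h4, -⟩ :=
      fin0 k (e1 ▸ sub_mf n _ hM) (e1 ▸ sub_fsl n _ hF)
    rw [e1] at h1
    rw [e3] at h0
    rw [e2] at h2 h4
    exact ⟨D', Q', e, L, h1, h0, h2, h3, h4, trivial⟩
  have hL := Q'.bose_fld L h3.1
  let l : Fn → Completion D := fun f => (L f Q'.vac : D')
  have hv : (Q'.vac : Completion D) = c.Om := h1.vac
  have hl : IsPot c.Q c.T l := by
    refine ⟨fun f g a hf hg => by simp [l, Q'.lin L f g a _ hL hf hg],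
      continuous_subtype_val.comp (Q'.cont L _ hL), fun f hf => ?_, fun s Λ a f v hs hΛ hf => ?_⟩
    · rw [← Submodule.coe_smul, ← h4 f _ hf]
      simp only [GF.tr, Submodule.coe_sum, Submodule.coe_smul, EB.STRa.coe_sum,
        Completion.coe_smul, fun m => h1.agree _ f Q'.vac c.Q.vac (.inr ⟨m, m, rfl⟩) hf
          (fun S a _ => a) hv]
    · have := h3.2.2 s Λ a f Q'.vac hs hΛ hf
      rw [Q'.U_vac _ _ _ hs hΛ] at this
      have e1 : ∀ z, (Q'.U s Λ a z : Completion D) = Ue c.Q s Λ a z := fun z => h1.U _ _ _ _ hs hΛ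
      simp only [l]
      rw [this, Submodule.coe_smul, e1, inner_smul_right, ← Ug_apply _ hs hΛ,
        ← Grp.coe hs hΛ, Grp.ug_inner hs hΛ, show (4 : ℝ) - 2 = (2 : ℕ) by norm_num,
        Real.rpow_natCast]
  have en := clo_enl Q'
  replace h1 := sub_ext n _ h1
  choose Φ hΦ using fun μ : Fin 1 → Ix => hX D' (clo Q') e
    ⟨h1.mem, h1.vac, h1.U, fun B h => en.bose _ (h1.fld B h), h1.adj, h1.agree⟩
    (afw_clo D'.subtype h0) (fun f v => 0 + ((-3 * eta (μ 0) : ℝ) : ℂ) • L (pd (μ 0) f) v)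
    ⟨.lin _ .zero (.der _ (.base hL)), fun C f g v hC hf hg k => by
      beta_reduce
      rw [zero_add, zero_add, H746.fld_smul hC hg, Q'.loc L C _ g v h3.1 hC (Ap.test_pd _ hf) hg
        (H15.sep_symm (ZZ.S0.sep_pd _ (H15.sep_symm k)))]⟩
  refine g3 t.grp t.jc hl (fun μ y f hf Z hZ => ?_) (Φ := Φ) fun μ =>
    ⟨(hΦ μ).1, fun f hf => ((hΦ μ).2 f hf).trans (by rw [zero_add]; rfl)⟩
  have := h0 va vb y L L _ null_va null_vb md_ab hL h3.2.1 (Ap.in_pd (μ 0) hf) Z hZ Q'.vac Q'.vac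
  rw [gr, gr, inner_smul_right, inner_smul_left, Complex.conj_ofReal, ZZ.S0.pd_bar _ hf.1,
    ← hv, this, ← inner_star, star_star]

end Vale.Agent.P352AA
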