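import Vale.Agent.P352AA.St
import Vale.Agent.P352AA.Mx

/-!
# P352AA: the extension of the defining fields
-/

set_option linter.all false

namespace Vale.Agent.P352AA

open Vale.Agent.P352 Vale.Agent.P352.GF Vale.Agent.P352.BW Vale.Agent.P352.H246
open Vale.Agent.P352.H496 Vale.Agent.P352.H755 Vale.Agent.P352.H15
open Vale.Agent.P352X Vale.Agent.P352Z Vale.Agent.P352NA Vale.Agent.P352X.EB
open Vale.Agent.P352X.EB.NA
open UniformSpace (Completion)

universe u

variable {D : Type u} [NormedAddCommGroup D] [InnerProductSpace ℂ D]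

theorem ext_conf (c : Ctx D) [Fact c.tp] (hM : MfAll c.Q) (hF : FSL c.Q) :
    ∃ (D' : Submodule ℂ (Completion D)) (Q' : Theory D') (e : Fld D → Fld D') (L : Fld D'),
      Ext0 c.Q Q' e ∧ AfW c.N Q' (↑) ∧ Q'.IsStress (fun m n => e (c.T m n)) ∧ Q'.IsScalar L 2 ∧
      (∀ f v, IsTest f → tr (fun m n => e (c.T m n)) f v = (3 : ℂ) • L (box f) v) ∧
      ∀ Q'' : Theory D', IsEnl Q' Q'' → IsImpr Q'' (fun m n => e (c.T m n))
        (improve (fun m n => e (c.T m n)) L) ∧ ConfAct Q'' (improve (fun m n => e (c.T m n)) L) ∧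
        CFS Q'' id (improve (fun m n => e (c.T m n)) L) ∧
        (∀ (p : Bool) k (Φ : Fin k.n → Fld D') a, IsMl Q'' k Φ → (∀ a, Fs Q'' (Φ a)) →
          (∀ a, if p then Fer Q'' id (Φ a) else Q''.bose (Φ a)) →
          DescS Q'' id (improve (fun m n => e (c.T m n)) L) p (Φ a)) ∧
        ∀ B, Q'.fld B → ∃ (n : ℕ) (C : Fin n → Fld D'),
          (∀ i, DescS Q'' id (improve (fun m n => e (c.T m n)) L) false (C i)) ∧
          ∀ f v, IsTest f → B f v = ∑ i, C i f v := by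
  have t := e0_thm c (main c).1
  have hc := cov_row ⟨t, ee_thm c, hM, hF⟩
  obtain ⟨D', Q', e, L, h1, h0, h2, h3, h4, h6⟩ := fin0 c hM hF
  refine ⟨D', Q', e, L, h1, h0, h2, h3, h4, fun Q'' n => ?_⟩
  obtain ⟨h7, h8⟩ := scal_row D' Q' _ L h2 h3 h4 Q'' n
  have hT'' := H746.isStress_enl n h2
  have g := (ext_gm t h1).enl n
  let k : CA.G.Cx D' := ⟨Q'', _, id, isT_of_impr h7 hT'',
    fun m n k l f g v hf hg h => sub_eq_zero.1 (h7.self m n k l f g v hf hg h), h7.cov,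
    ⟨_, hT''.bose o o⟩, fun _ => rfl, fun _ _ => rfl, fun _ _ _ _ _ => rfl, fun _ _ _ _ _ _ => rfl,
    fun C hC => ⟨1, fun _ => 1, fun _ => C, fun _ => hC, fun g v _ => by simp⟩,
    fun s L a s' L' a' hs hs' hL hL' => .inl fun v => g.mul s L a s' L' a' v hs hs' hL hL',
    fun F w _ => g.mix w _⟩
  obtain ⟨x, f0, al⟩ := CA.G.all_thm k
  have tl := tl_id k rfl
  have cf : CFS Q'' id (improve (fun m n => e (c.T m n)) L) := CA.G.cfs' al tl
  refine ⟨h7, h8, cf, fun p k Φ μ h1 h2 h3 => CA.G.descM al tl p k Φ μ h2 h1 h3, fun B hB => ?_⟩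
  obtain ⟨m, C, hC, h⟩ := h6 B hB
  have key : ∀ i, ∃ (r : ℕ) (C' : Fin r → Fld D'),
      (∀ j, DescS Q'' id (improve (fun m n => e (c.T m n)) L) false (C' j)) ∧
      ∀ f v, IsTest f → C i f v = ∑ j, C' j f v := fun i => by
    rcases hC i with h | ⟨C', a, b⟩
    · exact ⟨1, fun _ => L, fun _ => EG.desc_scal cf (scalar_enl n h3), fun _ _ _ => by simp [h]⟩
    · obtain ⟨r, C'', a1, a2⟩ := desc_fld t h1 hc n hM hF (CA.G.descM al tl false) a
      exact ⟨r, C'', a1, fun f v hf => (b f v hf).trans (a2 f v hf)⟩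
  choose r C' b1 b2 using key
  let E := (Fintype.equivFin (Σ i, Fin (r i))).symm
  refine ⟨_, fun j => C' (E j).1 (E j).2, fun j => b1 _ _, fun f v hf => (h f v).trans ?_⟩
  rw [E.sum_comp fun j => C' j.1 j.2 f v, Fintype.sum_sigma]
  exact Finset.sum_congr rfl fun i _ => b2 i f v hf

/-- the gradient of the new scalar field is weakly local relative to all fields -/
theorem ext_weak (c : Ctx D) [Fact c.tp] {D' : Submodule ℂ (Completion D)} {Q' : Theory D'}
    {S : Ix → Ix → Fld D'} {L : Fld D'} (hv : (Q'.vac : Completion D) = c.Om)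
    (hU : ∀ s Λ a z, 0 < s → IsLor Λ → (Q'.U s Λ a z : Completion D) = Ue c.Q s Λ a z)
    (hS : ∀ m f, IsTest f → (S m m f Q'.vac : Completion D) = (c.T m m f c.Q.vac : D))
    (h3 : Q'.IsScalar L 2) (h4 : ∀ f v, IsTest f → tr S f v = (3 : ℂ) • L (box f) v) :
    P352X.L.Mult c.Q 1 3 (gr fun f => (L f Q'.vac : D')) ∧
      ∀ μ, N86.WeakLoc c.Q (gr (fun f => (L f Q'.vac : D')) μ) := by
  have hL := Q'.bose_fld L h3.1
  let l : Fn → Completion D := fun f => (L f Q'.vac : D')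
  have hl : IsPot c.Q c.T l := by
    refine ⟨fun f g a hf hg => by simp [l, Q'.lin L f g a _ hL hf hg],
      continuous_subtype_val.comp (Q'.cont L _ hL), fun f hf => ?_, fun s Λ a f v hs hΛ hf => ?_⟩
    · rw [← Submodule.coe_smul, ← h4 f _ hf]
      simp only [GF.tr, Submodule.coe_sum, Submodule.coe_smul, EB.STRa.coe_sum,
        Completion.coe_smul, fun m => hS m f hf]
    · have := h3.2.2 s Λ a f Q'.vac hs hΛ hf
      rw [Q'.U_vac _ _ _ hs hΛ] at this
      simp only [l]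
      rw [this, Submodule.coe_smul, hU _ _ _ _ hs hΛ, inner_smul_right, ← Ug_apply _ hs hΛ,
        ← Grp.coe hs hΛ, Grp.ug_inner hs hΛ, show (4 : ℝ) - 2 = (2 : ℕ) by norm_num,
        Real.rpow_natCast]
  refine ⟨mult hl, fun μ f X X' hf hX => ?_⟩
  have := G3p.weak (main c).2.1 μ f X X' hf hX
  rwa [G3p.gr, G3p.gr, hl.unique c.hl _ (Ap.test_pd _ hf.1),
    hl.unique c.hl _ (Ap.test_pd _ (Ap.test_bar hf.1))] at this

end Vale.Agent.P352AA
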