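import Vale.Agent.P352AA.Pub
import Vale.Agent.P352X.CL.FL

/-!
# P352AA: the stress tensor of dimension four in dilation covariant theories
-/

set_option linter.all false

open Filter Topology
open scoped ComplexConjugate

namespace Vale.Agent.P352AA

open Vale.Agent.P352 Vale.Agent.P352.GF Vale.Agent.P352.H15 Vale.Agent.P352.H755
open Vale.Agent.P352.H496 Vale.Agent.P352X Vale.Agent.P352X.CL
open Fss hiding U_dil u_inv inv_u u_adj dl_herm dl_cov dl_cons dl_charge dl_pch
open Fss.G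
open Complex (I)

noncomputable section

variable {D : Type*} [NormedAddCommGroup D] [InnerProductSpace ℂ D] {Q : Theory D}
  {T : Ix → Ix → Fld D} {B : Fld D} {f g : Fn} {s : ℝ} {A : (V → V) → D → D}

/-- covariance under dilations -/
def Cv (Q : Theory D) : Prop := ∀ s, 0 < s → H246.Cov Q s GF.one 0

/-- the dilate of `B` is a linear combination of fields -/
def Ky (Q : Theory D) (hs : 0 < s) (B : Fld D) {n : ℕ} (z : Fin n → ℂ) (C : Fin n → Fld D) : Prop :=
  (∀ i, Q.fld (C i)) ∧ ∀ f v, IsTest f →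
    B f (u Q s hs v) = u Q s hs (∑ p, z p • C p (ds s f) v)

lemma ky (R : M1 Q) (h : Cv Q) (hs : 0 < s) (hB : Q.fld B) :
    ∃ (n : ℕ) (z : Fin n → ℂ) (C : Fin n → Fld D), Ky Q hs B z C := by
  obtain ⟨n, z, C, h1, h2⟩ := (h s⁻¹ (inv_pos.2 hs)).2 B hB
  refine ⟨n, z, C, h1, fun f v hf => ?_⟩
  have := h2 (ds s f) (u Q s hs v) (ds_test hs hf)
  rw [show Q.U s⁻¹ GF.one 0 (u Q s hs v) = v from inv_u R hs v] at this
  rw [← this]
  exact ((u_inv R hs _).trans (congrArg (B · _) (ds_inv hs f))).symm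

lemma der (h : Der Q A) {s : ℝ → ℝ} {L : ℝ → Ix → V} {a : ℝ → V} {w : Ix → V} {r : ℝ} {y : V}
    (K : H746.Crv s L a w r y) {X : V → V}
    (hX : ∀ z n, X z n = y n + r * z n + ∑ m, z m * w m n) (v : D) :
    HasDerivAt (fun e => Q.U (s e) (L e) (a e) v) (I • A X v) 0 :=
  h s L a X v K.s0 K.L0 K.a0 (fun e => ⟨K.sp e, K.lor e⟩) fun n x => K.dX hX n x

/-- the generators are linear -/
def gen (h : Der Q A) {r : ℝ} {X : V → V} (hX : IsSim r X) : D →ₗ[ℂ] D where
  toFun := A X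
  map_add' v w := by
    obtain ⟨y, w', hw, hX⟩ := hX
    obtain ⟨s, L, a, K⟩ := H746.exists_crv hw r y
    have h1 := (der h K hX v).add (der h K hX w)
    have h2 := der h K hX (v + w)
    simp only [fun e => U_add (Q := Q) (K.sp e) (K.lor e) (a e) v w] at h2
    refine smul_right_injective D Complex.I_ne_zero ?_
    simp only [smul_add]
    exact h2.unique h1
  map_smul' z v := by
    obtain ⟨y, w', hw, hX⟩ := hX
    obtain ⟨s, L, a, K⟩ := H746.exists_crv hw r y
    have h1 := (der h K hX v).const_smul z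
    have h2 := der h K hX (z • v)
    simp only [fun e => U_smul (Q := Q) (K.sp e) (K.lor e) (a e) z v] at h2
    refine smul_right_injective D Complex.I_ne_zero ?_
    simp only [RingHom.id_apply]
    rw [smul_comm]
    exact h2.unique h1

lemma conj_dil (R : M1 Q) (h : Der Q A) (hs : 0 < s) {y : V} {w : Ix → V}
    (hw : ∀ m n, eta n * w m n = -(eta m * w n m)) {X X' : V → V}
    (hX : ∀ z n, X z n = (s • y) n + 0 * z n + ∑ m, z m * w m n)
    (hX' : ∀ z n, X' z n = y n + 0 * z n + ∑ m, z m * w m n) (v : D) :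
    u Q s hs (A X' v) = A X (u Q s hs v) := by
  obtain ⟨s', L, a, K⟩ := H746.exists_crv hw 0 y
  have K' : H746.Crv s' L (fun e => s • a e) w 0 (s • y) :=
    ⟨K.s0, K.L0, by simp [K.a0], K.sp, K.lor, K.ds, K.dL, fun n => (K.da n).const_mul s⟩
  have h1 := hasDerivAt_iso (U_add hs H496.isLor_one 0) (U_smul hs H496.isLor_one 0)
    (fun v => H246.U_nrm0 (Q := Q) hs H496.isLor_one 0 v) (der h K hX' v)
  have h2 := der h K' hX (u Q s hs v)
  have e : (fun e => Q.U s GF.one 0 (Q.U (s' e) (L e) (a e) v)) =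
      fun e => Q.U (s' e) (L e) (s • a e) (u Q s hs v) := by
    funext e
    refine (R _ _ _ _ _ _ v hs (K.sp e) H496.isLor_one (K.lor e) (.inl rfl)).trans
      (Eq.trans ?_ (R _ _ _ _ _ _ v (K.sp e) hs (K.lor e) H496.isLor_one (.inr rfl)).symm)
    have : sim (s' e) (L e) (s • a e) 0 = s • a e := by
      funext n
      simp [sim]
    simp only [this, sim_dil, zero_add, one_smul, mul_comm s]
    simp only [GF.one, N86.c1_bas]
  rw [e] at h1
  refine smul_right_injective D Complex.I_ne_zero ?_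
  exact (map_smul (u Q s hs) I _).symm.trans (h1.unique h2)

section
variable (R : M1 Q) (hT : Stress0 Q T) (hs : 0 < s) {n : ℕ} {z : Fin n → ℂ} {C : Fin n → Fld D}
include R

theorem comm (h : Ky Q hs B z C) (hf : IsTest f) (P : D →ₗ[ℂ] D)
    (v w : D) : inner ℂ w (u Q s hs (P (u Q s⁻¹ (inv_pos.2 hs) (B f v))) -
      B f (u Q s hs (P (u Q s⁻¹ (inv_pos.2 hs) v)))) = ∑ d, z d *
      inner ℂ (u Q s⁻¹ (inv_pos.2 hs) w) (P (C d (ds s f) (u Q s⁻¹ (inv_pos.2 hs) v)) -
        C d (ds s f) (P (u Q s⁻¹ (inv_pos.2 hs) v))) := by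
  conv_lhs => rw [← u_inv R hs v]
  rw [h.2 _ _ hf, h.2 _ _ hf, inv_u R, inv_u R, ← map_sub, u_adj R, map_sum,
    ← Finset.sum_sub_distrib, inner_sum]
  exact Finset.sum_congr rfl fun d _ => by rw [map_smul, ← smul_sub, inner_smul_right]

include hT

theorem charge (h : Ky Q hs B z C) {G : ℝ → Fn} (hG : IsCutoff G) (n : Ix)
    (hf : IsTest f) (hc : HasCompactSupport f) (v w : D) : Tendsto (fun r => inner ℂ w
      (dl Q s hs (T o n) (G r) (B f v) - B f (dl Q s hs (T o n) (G r) v))) atTop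
      (𝓝 (inner ℂ w ((Complex.I * eta n) • B (pd n f) v))) := by
  have hb := Q.bose_fld _ (hT.bose o n)
  have s0 : (s : ℂ) ≠ 0 := Complex.ofReal_ne_zero.2 hs.ne'
  have l := tendsto_finset_sum Finset.univ fun d _ => ((hT.charge _ n _ _ (u Q s⁻¹ (inv_pos.2 hs) v)
    (u Q s⁻¹ (inv_pos.2 hs) w) (cut_ds hG hs) (h.1 d) (ds_test hs hf)
    (ds_cpt hs hc)).const_mul (s : ℂ)⁻¹).const_mul (z d)
  convert l.congr' ((isTest_cutoff hG).mono fun r hr => ?_) using 2
  · conv_lhs => rw [← u_inv R hs v, h.2 _ _ (Ap.test_pd n hf), ← map_smul, u_adj R,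
      Finset.smul_sum, inner_sum]
    refine Finset.sum_congr rfl fun d _ => ?_
    rw [ds_pd hs hf, lin1 (h.1 d) (ds_test hs (Ap.test_pd n hf))]
    simp only [inner_smul_right]
    field_simp
  · refine Eq.trans (Finset.sum_congr rfl fun d _ => ?_)
      (comm R hs h hf (fl hb (ds_test hs hr)) v w).symm
    rw [lin1 hb (ds_test hs hr), lin1 hb (ds_test hs hr),
      H746.fld_smul (h.1 d) (ds_test hs hf), ← smul_sub, inner_smul_right, inv_mul_cancel_left₀ s0]
    rfl

theorem pch (R' : Der Q A) (hP : ND.PCh Q T A) (h : Ky Q hs B z C)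
    {G : ℝ → Fn} (hG : IsCutoff G) {X : V → V}
    (hX : IsSim 0 X) (hf : IsTest f) (hc : HasCompactSupport f) (v w : D) :
    Tendsto (fun r => inner ℂ w (ND.cur (fun m n => dl Q s hs (T m n)) X (G r) (B f v) -
      B f (ND.cur (fun m n => dl Q s hs (T m n)) X (G r) v))) atTop
      (𝓝 (inner ℂ w (A X (B f v) - B f (A X v)))) := by
  have hb := fun m n => Q.bose_fld _ (hT.bose m n)
  have s0 : (s : ℂ) ≠ 0 := Complex.ofReal_ne_zero.2 hs.ne'
  set X' : V → V := fun z => s⁻¹ • X (s • z) with hX'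
  obtain ⟨y, w', h1, h2⟩ := id hX
  have h3 : ∀ z n, X' z n = (s⁻¹ • y) n + 0 * z n + ∑ m, z m * w' m n := fun z n => by
    simp only [hX', Pi.smul_apply, h2, smul_eq_mul, mul_assoc, ← Finset.mul_sum]
    field_simp
  have hX1 : IsSim 0 X' := ⟨_, w', h1, h3⟩
  have eP : ∀ z, u Q s hs (gen R' hX1 (u Q s⁻¹ (inv_pos.2 hs) z)) = A X z := fun z => by
    refine (conj_dil R R' hs h1 (X := X) (by rw [smul_inv_smul₀ hs.ne']; exact h2) h3 _).trans ?_
    rw [u_inv R hs z]
  have l := tendsto_finset_sum Finset.univ fun d _ => (hP _ X' _ _ (u Q s⁻¹ (inv_pos.2 hs) v)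
    (u Q s⁻¹ (inv_pos.2 hs) w) (cut_ds hG hs) hX1 (h.1 d) (ds_test hs hf)
    (ds_cpt hs hc)).const_mul (z d)
  convert l.congr' ((isTest_cutoff hG).mono fun r hr => ?_) using 2
  · rw [← eP, ← eP]
    exact comm R hs h hf (gen R' hX1) v w
  · have ht : IsTest fun x => (s : ℂ) * ds s (G r) x := Ap.sw_cmul s (ds_test hs hr)
    have e : ∀ z, ND.cur (fun m n => dl Q s hs (T m n)) X (G r) z =
        u Q s hs (curL hb hX1 ht (u Q s⁻¹ (inv_pos.2 hs) z)) := fun z => by
      rw [curL_apply, ND.cur, ND.cur, map_sum]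
      refine Finset.sum_congr rfl fun n _ => ?_
      rw [Fss.dl]
      congr 2
      funext x
      simp only [ds_apply, hX', Pi.smul_apply, smul_eq_mul]
      push_cast
      field_simp
    rw [e, e, comm R hs h hf]
    simp only [curL_apply]

end

end

end Vale.Agent.P352AA
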