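import Vale.Agent.P352AA.Pub
import Vale.Agent.P352X.R.G3

/-!
# P352AA: the virial current without curl
-/

set_option linter.all false

noncomputable section

open scoped SchwartzMap LineDeriv

namespace Vale.Agent.P352AA

open Vale.Agent.P352 Vale.Agent.P352.GF Vale.Agent.P352.BW Vale.Agent.P352.H246
open Vale.Agent.P352.H496 Vale.Agent.P352.H755 Vale.Agent.P352.H15 Vale.Agent.P352X
open G3p hiding l_sum gr mult
open UniformSpace (Completion)

variable {D : Type*} [NormedAddCommGroup D] [InnerProductSpace ℂ D] {c : Ctx D}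
  {l : Fn → Completion D}

lemma l_sum (hl : IsPot c.Q c.T l) {ι : Type*} (t : Finset ι) (a : ι → ℂ) {f : ι → Fn} (hf : ∀ i, IsTest (f i)) :
    l (fun x => ∑ i ∈ t, a i * f i x) = ∑ i ∈ t, a i • l (f i) := by
  choose g hg using hf
  let lC := Grp.toC l hl.lin hl.cont
  have h1 : lC (∑ i ∈ t, a i • g i) = ∑ i ∈ t, a i • lC (g i) := by
    simp only [map_sum, map_smul]
  have h2 : ∀ g, lC g = l (ev g) := fun _ => rfl
  simpa only [h2, Grp.ev_sum, hg] using h1

/-- the gradient of the potential -/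
def gr (l : Fn → Completion D) (μ : Fin 1 → Ix) (f : Fn) : Completion D :=
  ((-3 * eta (μ 0) : ℝ) : ℂ) • l (pd (μ 0) f)

lemma mult (hl : IsPot c.Q c.T l) : L.Mult c.Q 1 3 (gr l) where
  lin μ f f' a hf hf' := by
    rw [gr, gr, gr, pd_lin _ a hf hf', hl.lin _ _ a (Ap.test_pd _ hf) (Ap.test_pd _ hf'),
      smul_add, smul_comm a]
  cont μ := by
    simp only [gr, Grp.pd_ev]
    exact (hl.cont.comp (LineDeriv.lineDerivOpCLM ℂ Sch (bas (μ 0) 1 : V)).continuous).const_smul
      ((-3 * eta (μ 0) : ℝ) : ℂ)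
  cov μ s L a f hs hL hf := by
    have h1 : ∀ k, Ue c.Q s L a (gr l (fun _ => k) fun x => f (sim s L a x)) =
        ∑ j, ((-3 * eta k * (s * L k j) * (s ^ 2)⁻¹ : ℝ) : ℂ) • l (pd j f) := fun k => by
      rw [← Ug_apply c.Q hs hL, gr, pd_sim k a hs hL hf,
        l_sum hl _ _ fun j => Grp.test_sim hs hL a (Ap.test_pd j hf), map_smul, map_sum,
        Finset.smul_sum]
      refine Finset.sum_congr rfl fun j _ => ?_
      rw [map_smul, Grp.pot c.hN.toRep hl a hs hL (Ap.test_pd j hf), ← Complex.coe_smul, smul_smul,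
        smul_smul]
      congr 1
      push_cast
      ring
    rw [sum1]
    simp only [h1, Finset.smul_sum, smul_smul]
    rw [Finset.sum_comm]
    simp only [← Finset.sum_smul, ← Complex.ofReal_mul, ← Complex.ofReal_sum]
    have h2 : ∀ j, ∑ k, s ^ ((4 : ℝ) - 3) * (∏ i : Fin 1, L k (μ i)) *
        (-3 * eta k * (s * L k j) * (s ^ 2)⁻¹) = -3 * bas (μ 0) (eta (μ 0)) j := fun j => by
      rw [← lor_transpose hL, Finset.mul_sum]
      refine Finset.sum_congr rfl fun k _ => ?_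
      rw [show (4 : ℝ) - 3 = 1 by norm_num, Real.rpow_one, Fin.prod_univ_one]
      field_simp
    simp only [h2]
    rw [Finset.sum_eq_single (μ 0) (fun j _ hj => by simp [bas, hj]) (by simp)]
    simp [gr, bas]

theorem g3 (g : GRP c) (j : JC c) (hl : IsPot c.Q c.T l) (hp : ∀ μ y f, In (Wdg va vb y) f →
    Pr (c.N (Wdg va vb y)) c.Om (gr l μ f) (gr l μ (bar f))) {Φ : (Fin 1 → Ix) → Fld D}
    (hΦ : ∀ μ, c.Q.bose (Φ μ) ∧ ∀ f, IsTest f → ((Φ μ f c.Q.vac : D) : Completion D) = gr l μ f) :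
    G3 c := by
  have R := c.hN.toRep
  have hab : 0 < mdot va vb := by rw [md_ab]; exact one_pos
  have hF : ∀ m, c.Q.fld (Φ fun _ => m) := fun m => c.Q.bose_fld _ (hΦ _).1
  have hv : ∀ m f, IsTest f → ((Φ (fun _ => m) f c.Q.vac : D) : Completion D) =
      ((-3 * eta m : ℝ) : ℂ) • l (pd m f) := fun m f hf => (hΦ _).2 f hf
  refine ⟨fun m => Φ fun _ => m, ⟨fun m => (hΦ _).1, fun m f v w hf => ?_,
    fun m s L a f v hs hL hf => ?_, fun f v hf => ?_⟩, fun m n f hf => ?_⟩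
  · obtain ⟨B, hB, hadj⟩ := c.Q.adj _ (hF m)
    rw [hadj f v w hf]
    congr 1
    obtain ⟨G, hG⟩ := Ap.test_bar hf
    rw [← hG]
    refine sub_eq_zero.1 (ST.vanish_of_compact (Grp.fC hB w - Grp.fC (hF m) w) G fun u hu _ => ?_)
    obtain ⟨y, hy⟩ := ex_wdg hu
    have hi : In (Wdg va vb y) (ev u) := ⟨⟨u, rfl⟩, hu, hy⟩
    have hi' := Ap.in_bar hi
    refine sub_eq_zero.2 (sepr j g (c.hN.fld _ _ _ hB hi) (c.hN.fld _ _ _ (hF m) hi) ?_ w)
    have p1 := Pr.of_afs (afs_of_aff (fun v w => hadj _ v w hi'.1) (c.hN.fld _ _ _ (hF m) hi'))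
      c.Q.vac
    have p2 := hp (fun _ => m) y _ hi'
    rw [← (hΦ _).2 _ hi'.1, ← (hΦ _).2 _ (Ap.test_bar hi'.1)] at p2
    have p3 := p1.unique p2 (j.cyc' g null_va null_vb hab y)
    rw [Ap.bar_bar] at p3
    exact Completion.coe_injective D p3
  · obtain ⟨G, rfl⟩ := hf
    have key : ∀ u : Sch, (Grp.fC (hF m) (c.Q.U s L a v) - ∑ k, (s * L k m : ℂ) •
        ((ueI c.Q hs hL a).toContinuousLinearMap ∘L Grp.fC (hF k) v ∘L Grp.simS hs hL a)) u =
        Φ (fun _ => m) (ev u) (c.Q.U s L a v) - ∑ k, (s * L k m : ℂ) •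
          c.Q.U s L a (Φ (fun _ => k) (fun x => ev u (sim s L a x)) v) := fun u => by
      have e : ev (Grp.simS hs hL a u) = fun x => ev u (sim s L a x) :=
        funext (Grp.simS_apply hs hL a u)
      simp only [ContinuousLinearMap.sub_apply, ContinuousLinearMap.sum_apply,
        ContinuousLinearMap.smul_apply, ContinuousLinearMap.comp_apply, Grp.fC_apply, e]
      rfl
    refine sub_eq_zero.1 ((key G).symm.trans (ST.vanish_of_compact _ G fun u hu _ => ?_))
    obtain ⟨y, hy⟩ := ex_wdg hu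
    have hi : In (Wdg va vb y) (ev u) := ⟨⟨u, rfl⟩, hu, hy⟩
    have i1 := ue_inv R hs hL a
    have i2 : ∀ v, c.Q.U s⁻¹ (linv L) (-(sim s⁻¹ (linv L) 0 a)) (c.Q.U s L a v) = v := fun v =>
      (ueI c.Q hs hL a).injective (i1 _)
    have h3 := sepr j g (c.hN.fld _ _ _ (hF m) hi) (aff_sum (fun k => (s * L k m : ℂ)) fun k =>
      aff_conj g a hs hL (Set.image_preimage_subset _ _)
        (c.hN.fld _ _ _ (hF k) (Ap.in_sim hs hL a hi))) ?_ (c.Q.U s L a v)
    · rw [key, h3]
      simp only [i2, sub_self]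
    · refine Completion.coe_injective D ?_
      have h4 := (mult hl).cov (fun _ => m) s L a _ hs hL hi.1
      rw [sum1] at h4
      rw [(hΦ _).2 _ hi.1, h4, c.Q.U_vac _ _ _ (inv_pos.2 hs) (isLor_linv hL),
        ← Completion.coe_toComplL (𝕜 := ℂ), map_sum]
      refine Finset.sum_congr rfl fun k _ => ?_
      rw [map_smul, Completion.coe_toComplL, ← ue_coe hs hL,
        (hΦ _).2 _ (Grp.test_sim hs hL a hi.1), show (4 : ℝ) - 3 = 1 by norm_num, Real.rpow_one,
        Fin.prod_univ_one, Complex.ofReal_mul]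
  · obtain ⟨G, rfl⟩ := hf
    have key : ∀ u : Sch, (∑ m, (eta m : ℂ) • Grp.fC (Grp.T_fld c.hT m m) v +
        ∑ m, Grp.fC (hF m) v ∘L LineDeriv.lineDerivOpCLM ℂ Sch (bas m 1 : V)) u =
        GF.tr c.T (ev u) v + ∑ m, Φ (fun _ => m) (pd m (ev u)) v := fun u => by
      simp only [ContinuousLinearMap.add_apply, ContinuousLinearMap.sum_apply,
        ContinuousLinearMap.smul_apply, ContinuousLinearMap.comp_apply, Grp.fC_apply, Grp.pd_ev]
      rfl
    refine eq_neg_of_add_eq_zero_left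
      ((key G).symm.trans (ST.vanish_of_compact _ G fun u hu _ => ?_))
    obtain ⟨y, hy⟩ := ex_wdg hu
    have hi : In (Wdg va vb y) (ev u) := ⟨⟨u, rfl⟩, hu, hy⟩
    have h3 := sepr j g (aff_of (g.affh _ _ hi)) (aff_sum (fun _ => (-1 : ℂ)) fun k =>
      c.hN.fld _ _ _ (hF k) (Ap.in_pd k hi)) ?_ v
    · rw [key]
      simp only [neg_one_smul, Finset.sum_neg_distrib] at h3
      exact add_eq_zero_iff_eq_neg.2 h3
    · refine Completion.coe_injective D ?_
      rw [Ctx.Thf, ← hl.trace _ hi.1, ← Completion.coe_toComplL (𝕜 := ℂ), map_sum]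
      have e : box (ev u) = fun x => ∑ m, (eta m : ℂ) * pd m (pd m (ev u)) x := rfl
      rw [e, l_sum hl _ _ fun m => Ap.test_pd m (Ap.test_pd m hi.1), Finset.smul_sum]
      refine Finset.sum_congr rfl fun k _ => ?_
      rw [map_smul, Completion.coe_toComplL, hv _ _ (Ap.test_pd k hi.1), smul_smul, smul_smul]
      congr 1
      push_cast
      ring
  · refine Completion.coe_injective D ?_
    have e : pd n (pd m f) = pd m (pd n f) := by
      funext x
      simpa only [Ap.dv_bas] using Ap.dv_comm (Ap.sw_smooth hf) (bas n 1) (bas m 1) x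
    have e2 : ∀ k, (eta k : ℂ) * ((-3 * eta k : ℝ) : ℂ) = -3 := fun k => by
      rw [← Complex.ofReal_mul, mul_left_comm, P352X.eta_sq]
      norm_num
    rw [Completion.coe_smul, Completion.coe_smul, hv _ _ (Ap.test_pd m hf),
      hv _ _ (Ap.test_pd n hf), smul_smul, smul_smul, e2, e2, e]

/-- reconstruction of vector fields -/
theorem g3_rec (g : GRP c) (j : JC c) (h2 : G2 c) (hR : RecV c.Q) : G3 c :=
  let ⟨_, h⟩ := hR _ (mult c.hl) (weak h2)
  g3 g j c.hl (fun μ y f hf => j.core va vb y _ _ null_va null_vb (by rw [md_ab]; exact one_pos)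
    fun X X' hX => weak h2 μ _ X X' ⟨hf.1, hf.2.1, Set.subset_univ _⟩ (hX.mono (wdg_cc hf.2.2))) h

end Vale.Agent.P352AA
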