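import Vale.Agent.P352X.CL.Pub
import Vale.Agent.P352X.EH.Pub
import Vale.Agent.P352NA.Pub

open Filter Topology

namespace Vale.Agent.P352AA

open P352 GF BW H246 H496 H755 P352X P352NA
open UniformSpace (Completion)

variable {D : Type*} [NormedAddCommGroup D] [InnerProductSpace ℂ D]

/-- The vectors of `D` are in the domain of the generators of the similitudes: `A X` is the
generator with velocity field `X`. -/
def Der (Q : Theory D) (A : (V → V) → D → D) : Prop :=
  ∀ (s : ℝ → ℝ) (L : ℝ → Ix → V) (a : ℝ → V) X v, s 0 = 1 → L 0 = one → a 0 = 0 →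
    (∀ e, 0 < s e ∧ IsLor (L e)) →
    (∀ n x, HasDerivAt (fun e => sim (s e) (L e) (a e) x n) (X x n) 0) →
    HasDerivAt (fun e => Q.U (s e) (L e) (a e) v) (Complex.I • A X v) 0

/-- The field `B` has a finite scaling law (logarithms are allowed). -/
def Fs (Q : Theory D) (B : Fld D) : Prop := ∃ F C, Scl Q B F C

/-- **Scaling expansions at large distances.** The dilates of the field `B`, rescaled with the
dimension `k`, are, up to terms that tend to zero weakly as `s → ∞`, finite sums of
`s ^ (k - d) (log s) ^ j` times local fields `C (d, j)`. -/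
def Asy (Q : Theory D) (k : ℝ) (B : Fld D) : Prop :=
  ∃ (F : Finset (ℂ × ℕ)) (C : ℂ × ℕ → Fld D), (∀ p, Q.bose (C p)) ∧ ∀ f v w, IsTest f →
    Tendsto (fun s : ℝ => (s : ℂ) ^ (k - 4 : ℂ) *
      inner ℂ (Q.U s one 0 w) (B (fun x => f (sim s⁻¹ one 0 x)) (Q.U s one 0 v)) -
        ∑ p ∈ F, (s : ℂ) ^ (k - p.1) * (Real.log s : ℂ) ^ p.2 * inner ℂ w (C p f v)) atTop (𝓝 0)

/-- **Reconstruction of vector fields of dimension three.** Every covariant vector multiplet of
dimension three that is weakly local relative to the fields is generated from the vacuum by local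
fields of the theory. -/
def RecV (Q : Theory D) : Prop :=
  ∀ φ, L.Mult Q 1 3 φ → (∀ μ, N86.WeakLoc Q (φ μ)) → ∃ Φ : (Fin 1 → Ix) → Fld D,
    ∀ μ, Q.bose (Φ μ) ∧ ∀ f, IsTest f → ((Φ μ f Q.vac : D) : Completion D) = φ μ f

/-- **The theory consists of all local fields of its defining fields.** The defining fields (the
fields of `Q₀`) are fields of `Q`, the vacuum is cyclic for the tensor fields among them, they are
finite sums of components of multiplets and have finite scaling laws. Every Bose field of an
extension of `Q₀` in the same Hilbert space, with fields affiliated to the algebras of the wedges,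
agrees on the vacuum with a Bose field of `Q`. -/
def Borch (Q : Theory D) (N : Set V → VonNeumannAlgebra (Completion D)) : Prop :=
  ∃ Q₀ : Theory D, H15.IsEnl Q₀ Q ∧ TfGen Q₀ ∧ MfAll Q₀ ∧ FSL Q₀ ∧
    ∀ (D' : Submodule ℂ (Completion D)) (Q' : Theory D') e, Ext0 Q₀ Q' e → AfW N Q' (↑) →
      ∀ B, Q'.bose B → ∃ C, Q.bose C ∧
        ∀ f, IsTest f → ((C f Q.vac : D) : Completion D) = (B f Q'.vac : D')

/-- **Conformal invariance.** `S` is a stress tensor of dimension four with the virial current `K`,
both fields of `Q`, and `t = S + (∂K - η ∂·K) / 3` is a traceless improvement of `S` whose charges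
act by the infinitesimal conformal transformations. All multiplets of Bose or Fermi fields with a
spin and finite scaling laws consist of descendants of conformal primaries. -/
structure Conf (Q : Theory D) (G : D → D) (S : Ix → Ix → Fld D) (K : Ix → Fld D) : Prop where
  str : Q.IsStress S
  vir : IsVirial Q S K
  impr : IsImpr Q S (improveJ S K)
  act : ConfAct Q (improveJ S K)
  cfs : CFS Q G (improveJ S K)
  desc : ∀ (e : Bool) k (Φ : Fin k.n → Fld D) a, IsMl Q k Φ → (∀ a, Fs Q (Φ a)) →
    (∀ a, if e then Fer Q G (Φ a) else Q.bose (Φ a)) → DescS Q G (improveJ S K) e (Φ a)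

end Vale.Agent.P352AA
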