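import Vale.Agent.P352AA.FL
import Vale.Agent.P352Z.S0.Nl

/-!
# P352AA: the logarithmic chains in dilation covariant theories
-/

set_option linter.all false

open MeasureTheory Filter Topology
open scoped ComplexConjugate

namespace Vale.Agent.P352AA

open Vale.Agent.P352 Vale.Agent.P352.GF Vale.Agent.P352.BW Vale.Agent.P352.H246
open Vale.Agent.P352.H496 Vale.Agent.P352.H755 Vale.Agent.P352.H15
open Vale.Agent.P352X Vale.Agent.P352X.Fss Vale.Agent.P352Z Vale.Agent.P352X.ZZ.S0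
open Vale.Agent.P352X.CL (ph vd)
open UniformSpace (Completion)

noncomputable section

variable {D : Type*} [NormedAddCommGroup D] [InnerProductSpace ℂ D] {Q : Theory D}
  {A : (V → V) → D → D} {B C : Fld D} {f g : Fn} {κ s t r z : ℝ} {T : Ix → Ix → Fld D}
  {J : Ix → Fld D}

lemma clo_clo (R : G.M1 Q) (hF : Cv Q) : Clo (clo Q) := by
  refine ⟨Cl.zero, fun _ _ c => Cl.lin c, fun _ m => Cl.der m, fun _ _ => Cl.cg,
    fun B s hs hB => ?_, fun B hB h => ⟨hB, fun C f g v hC => h C f g v (Cl.base hC)⟩⟩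
  show Cl Q.fld (dl Q s hs B)
  induction hB with
  | base h =>
    obtain ⟨n, z, C, h1, h2⟩ := ky R hF (inv_pos.2 hs) h
    refine .cg (cl_sum Finset.univ z fun p => .base (h1 p)) fun f v hf => ?_
    refine (congrArg (u Q s hs) (h2 _ v (ds_test hs hf))).trans ?_
    rw [G.u_inv R hs, ds_inv hs]
  | zero => exact .cg .zero fun _ _ _ => map_zero (u Q s hs)
  | lin c _ _ h1 h2 => exact .cg (.lin c h1 h2) fun _ _ _ => by simp only [Fss.dl, map_add, map_smul]
  | der m k h1 =>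
    refine .cg (.lin s .zero (.der m h1)) fun f v hf => ?_
    simp only [Fss.dl, ds_pd hs hf, zero_add]
    rw [lin1 (Q := clo Q) k (ds_test hs (Ap.test_pd m hf)), map_smul]
  | cg _ e h1 => exact .cg h1 fun f v hf => by simp only [Fss.dl, e _ _ (ds_test hs hf)]

lemma xp_adj (R : Rep Q A) {F : Finset (ℂ × ℕ)} {Z : ℂ × ℕ → Fld D} (h : Scl Q B F Z)
    (a : Ad B C) (κ : ℝ) : ∃ G, Xp Q κ C G := by
  choose Z' _ b using fun p => Q.adj _ (h.1 p).1
  let e : ℂ × ℕ ↪ ℂ × ℕ := ⟨fun p => (conj (4 - κ - p.1), p.2), fun p q e => by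
    simp only [Prod.ext_iff, star_inj, RingHom.injective (starRingEnd ℂ) |>.eq_iff,
      sub_right_inj] at e ⊢
    exact e⟩
  refine ⟨F.map e, fun p => Z' (4 - κ - conj p.1, p.2), fun t f v hf => ?_⟩
  refine ext_inner_left ℂ fun w => ?_
  have := dw_ad R κ t a (bar f) w v (Ap.test_bar hf)
  rw [Ap.bar_bar] at this
  rw [← this, dw_scl R h κ t (Ap.test_bar hf), Finset.sum_map, sum_inner, inner_sum]
  refine Finset.sum_congr rfl fun p _ => ?_
  rw [inner_smul_left, inner_smul_right, ph_conj, b p _ w v (Ap.test_bar hf), Ap.bar_bar]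
  show _ = ph (conj (4 - κ - p.1), p.2) t * inner ℂ w (Z' (4 - κ - conj (conj (4 - κ - p.1)), p.2) f v)
  rw [Complex.conj_conj, sub_sub_cancel]

/-- **step 0** -/
theorem s0a (hC : Clo Q) (R : Rep Q A) (h1 : SV 1 Q T J A) {F : Ix → Ix → Finset (ℂ × ℕ)}
    {C : Ix → Ix → ℂ × ℕ → Fld D} (hS : ∀ m n, Scl Q (T m n) (F m n) (C m n))
    (h1J : ∀ m, Fs Q (J m)) : ∃ k Sj Vj, Out Q A k Sj Vj ∧ ∀ m n j f v, IsTest f →
      (4, j) ∈ F m n → Sj j m n f v = (j.factorial : ℂ) • C m n (4, j) f v := by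
  classical
  choose J' hJ' a using fun m => Q.adj _ (h1.fJ m)
  let JJ : Bool → Ix → Fld D := fun b => cond b J J'
  have h2 := (SV.sum hC Finset.univ (fun _ => 1 / 2) (z := fun _ => 1) (T := fun _ => T) (J := JJ)
    fun b => by
      cases b
      exacts [h1.adj hC R hJ' a, h1]).cg hC (T' := T)
      (fun m n f v _ => by
        rw [Fintype.sum_bool, ← add_smul]
        norm_num) fun _ _ _ _ => rfl
  rw [show ∑ _i : Bool, (1 / 2 : ℝ) * 1 = 1 by simp] at h2
  have hX : ∀ b m, ∃ F', Xp Q 1 (JJ b m) F' := fun b m => by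
    obtain ⟨F', C', h⟩ := h1J m
    cases b
    exacts [xp_adj R h (a m) 1, ⟨_, xp_scl R h 1⟩]
  choose F' hS' using hX
  let G := (Finset.univ.biUnion fun p : Ix × Ix => shf 0 (F p.1 p.2)) ∪
    Finset.univ.biUnion fun p : Bool × Ix => F' p.1 p.2
  let Λ : Finset ℂ := G.image Prod.fst ∪ {0, 3, 4}
  have hG : G ⊆ Λ ×ˢ Finset.range (G.sup Prod.snd + 1) := fun p hp => Finset.mem_product.2
    ⟨Finset.mem_union_left _ (Finset.mem_image_of_mem _ hp),
      Finset.mem_range.2 (Nat.lt_succ_of_le (Finset.le_sup (f := Prod.snd) hp))⟩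
  have g1 : ∀ m n, shf 0 (F m n) ⊆ Λ ×ˢ Finset.range (G.sup Prod.snd + 1) := fun m n p hp =>
    hG (Finset.mem_union_left _ (Finset.mem_biUnion.2 ⟨(m, n), Finset.mem_univ _, hp⟩))
  obtain ⟨S, c, d⟩ := ex_du Λ (G.sup Prod.snd) (by simp [Λ]) (by simp [Λ]) (by simp [Λ])
  refine ⟨_, _, _, out_of hC R h2 (fun m f v w hf => ?_) d
    (fun m n => (xp_scl R (hS m n) 0).mono (g1 m n)) fun m => Xp.sum _ _ fun b =>
      (hS' b m).mono fun p hp => hG (Finset.mem_union_right _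
        (Finset.mem_biUnion.2 ⟨(b, m), Finset.mem_univ _, hp⟩)), fun m n j f v hf h => ?_⟩
  · simp only [Fintype.sum_bool, JJ, cond, inner_add_left, inner_add_right, inner_smul_left,
      inner_smul_right, Complex.conj_ofReal, a m f v w hf, Ad.symm (a m) f v w hf, add_comm]
  · have g2 : ∀ p ∈ F m n, 4 - ((0 : ℝ) : ℂ) - p.1 ∈ Λ ∧ p.2 ≤ G.sup Prod.snd := fun p hp =>
      let ⟨u1, u2⟩ := Finset.mem_product.1 (g1 m n (Finset.mem_map_of_mem _ hp))
      ⟨u1, Nat.lt_succ_iff.1 (Finset.mem_range.1 u2)⟩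
    have no : ∀ p ∈ F m n, p ≠ (4, j) → (∑ t ∈ S j, (c j t : ℂ) *
        ph (4 - ((0 : ℝ) : ℂ) - p.1, p.2) (t + 0)) • C m n p f v = 0 := fun p hp h0 => by
      simp only [add_zero]
      rw [d.no j _ (g2 p hp).1 _ (g2 p hp).2 fun e => h0 (by
        simp only [Prod.ext_iff, Complex.ofReal_zero, sub_zero, sub_eq_zero] at e ⊢
        exact ⟨e.1.symm, e.2⟩), zero_smul]
    have e := cmb_eq (S := S j) (c := c j) (l := 0) fun t => dw_scl R (hS m n) 0 t hf v
    refine e.trans ?_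
    rw [Finset.sum_eq_single (4, j) no fun h' => absurd h h']
    simp only [add_zero, Complex.ofReal_zero, sub_zero, sub_self]
    rw [d.yes j (g2 _ h).2]

end

end Vale.Agent.P352AA
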