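import Vale.Agent.P352AA.As
import Vale.Agent.P352Z.Wire4

/-!
# P352AA: the stress tensor of dimension four
-/

set_option linter.all false

open MeasureTheory Filter Topology
open scoped ComplexConjugate

namespace Vale.Agent.P352AA

open Vale.Agent.P352 Vale.Agent.P352.GF Vale.Agent.P352.BW Vale.Agent.P352.H246
open Vale.Agent.P352.H496 Vale.Agent.P352.H755 Vale.Agent.P352.H15
open Vale.Agent.P352X Vale.Agent.P352X.Fss Vale.Agent.P352Z
open Vale.Agent.P352X.ZZ.S0 hiding ue_ue ue_zero ue_neg neg_ue ue_adj dw_law s0a clo_clo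
open G (M1)
open UniformSpace (Completion)

noncomputable section

variable {D : Type*} [NormedAddCommGroup D] [InnerProductSpace ℂ D] {Q : Theory D}
  {A : (V → V) → D → D} {T S : Ix → Ix → Fld D} {J K : Ix → Fld D}

lemma deg (R : Rep Q A) (hU : UVac Q) (hT : Stress0 Q T) (s : SV 1 (clo Q) S K A) {m n : Ix}
    (z1 : ∀ g v, IsTest g → S m n g v = 0) {g : Fn} (hg : IsTest g) (v : D) : T o 1 g v = 0 := by
  have z : ∀ L, IsLor L → ∀ g v w, IsTest g →
      ∑ a, ∑ b, (L a m * L b n : ℂ) * inner ℂ w (S a b g v) = 0 :=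
    fun L hL g v w hg => by
      have t := Ap.test_sim one_pos (isLor_linv hL) 0 hg
      have := congrArg (inner ℂ ((clo Q).U 1 L 0 w)) (s.cT m n L 0 _ v hL t)
      have e : ∀ x, sim 1 (linv L) 0 (sim 1 L 0 x) = x := fun x =>
        (conf_lor hL).cle.injective (sim_linv hL _)
      simpa only [z1 _ _ t, inner_sum, inner_smul_right, e, inner_zero_right,
        (clo Q).U_inner _ _ _ _ _ one_pos hL] using this.symm
  obtain ⟨j, hj⟩ : ∃ j, ∀ g v, IsTest g → S o j g v = 0 := by
    by_cases hn : n = o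
    · exact ⟨m, fun g v hg => by rw [s.symm _ _ g v hg, ← hn, z1 g v hg]⟩
    by_cases hm : m = o
    · exact ⟨n, hm ▸ z1⟩
    · exact ⟨n, fun g v hg => ext_inner_left ℂ fun w => (tens1 _
        (fun a b => by rw [s.symm a b g v hg]) hm hn ((z _ (bb_p hm) g v w hg).trans
          (z _ (bb_m hm) g v w hg).symm)).trans (inner_zero_right _).symm⟩
  refine degen R hU hT (j := j) (fun B f v hB hf hc => sub_eq_zero.1 (ext_inner_left ℂ fun w =>
    tendsto_nhds_unique (s.sch.pch _ _ B f v w isCutoff_cutF (const_sim _) (Cl.base hB) hf hc)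
      (tendsto_const_nhds.congr' ((isTest_cutoff isCutoff_cutF).mono fun ρ hρ => ?_)))) hg v
  have e : ∀ u, ND.cur S (fun _ => bas j 1) (cutF ρ) u = 0 := fun u =>
    Finset.sum_eq_zero fun b _ => by
      by_cases hb : b = j
      · exact hb ▸ hj _ u (test_sim0 (const_sim _) hρ _)
      · simpa [bas, hb] using lin0 (s.fT o b) u
  simp only [e, show B f 0 = 0 from map_zero (fl hB hf), sub_zero]

lemma dw_zero (R : M1 Q) (κ : ℝ) (B : Fld D) (f : Fn) (v : D) : dw Q κ 0 B f v = B f v := by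
  simp [dw, ue_zero R, de_zero]

/-- the marginal part of the stress tensor has dimension four -/
theorem core {N : Set V → VonNeumannAlgebra (Completion D)} (hT : Stress0 Q T)
    (hA : ND.PCh Q T A) (hV : Virial0 Q T J A) (hC : Cv Q) (aT : ∀ m n, Asy Q 4 (T m n))
    (aJ : ∀ m, Asy Q 3 (J m)) (hG : TfGen Q) (hN : LNm Q A N) (hU : UVac Q) :
    ∃ S, Q.IsStress S ∧ ND.PCh Q S A ∧ (∀ m n, Mf (fun t => dw Q 0 t (T m n)) (S m n)) ∧
      ∀ m n l f v, IsTest f → dw Q 0 l (S m n) f v = S m n f v := by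
  have R := hN.toRep
  have M := G.m1_rep R
  have hb := fun m n => Q.bose_fld _ (hT.bose m n)
  have E := clo_enl Q
  have hC' := clo_clo M hC
  choose Y F Z hY using fun m n => marg M (κ := 0) (by norm_num) (aT m n)
  choose K F' Z' hK using fun m => marg M (κ := 1) (by norm_num) (aJ m)
  have h1 : SV 1 (clo Q) T J A := ⟨fun m n => E.bose _ (hT.bose m n), hT.herm, hT.cov,
    fun m => E.bose _ (hV.bose m), hV.cov, hT.symm, hT.conserved, hV.div,
    (sch_of R hb hA hV).clo R hb fun m => Q.bose_fld _ (hV.bose m)⟩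
  have h2 := sv_marg hC' (clo_rep R) h1 (fun m n => (hY m n).bY hC') (fun m => (hK m).bY hC')
    (fun m n => (hY m n).mf) fun m => (hK m).mf
  obtain ⟨k, Sj, Vj, h, hS⟩ := s0a hC' (clo_rep R) h2 (fun m n => (hY m n).scl M)
    fun m => ⟨_, _, (hK m).scl M⟩
  have h0 := ZZ.open_thm.sj h (clo_tf hG) (clo_lnm hN) hU
  have d : ∀ m n l f v, IsTest f → dw Q 0 l (Y m n) f v = Y m n f v := fun m n l f v hf => by
    rw [← dw_zero M 0 (Y m n) f v, (hY m n).law _ _ _ hf, (hY m n).law _ _ _ hf]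
    refine Finset.sum_congr rfl fun ⟨d, j⟩ hp => ?_
    obtain rfl : d = 4 := by simpa using (hY m n).dim _ hp
    rcases Nat.eq_zero_or_pos j with rfl | hj
    · simp
    have := hS m n j f v hf hp
    rw [h0 j m n f v hj hf] at this
    simp [(smul_eq_zero.1 this.symm).resolve_left (Nat.cast_ne_zero.2 j.factorial_ne_zero)]
  have ex : ∀ m n, ∃ B, Q.bose B ∧ ∀ f v, IsTest f → B f v = Y m n f v := fun m n =>
    (hY m n).alt.elim (fun b => ⟨_, b, fun _ _ _ => rfl⟩) fun e => ⟨_, hT.bose o 1,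
      fun f v hf => (deg R hU hT h2 (m := m) (n := n) (fun _ _ _ => by rw [e]) hf v).trans
        (by rw [e])⟩
  choose S b e using ex
  have hM := fun m n => (hY m n).mf.cg (e m n)
  obtain ⟨s1, s2⟩ := st_marg M hC (fun L a hL => Function.Surjective.denseRange fun v =>
    ⟨_, ue_inv R one_pos hL a v⟩) hT b hM
  have d' : ∀ m n l f v, IsTest f → dw Q 0 l (S m n) f v = S m n f v := fun m n l f v hf => by
    rw [e m n f v hf, ← d m n l f v hf, dw, dw, e m n _ _ (de_test _ hf)]
  exact ⟨S, stress_of M s1 d', s2 A R.der hA, hM, d'⟩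

variable {D' : Type*} [NormedAddCommGroup D'] [InnerProductSpace ℂ D'] {P : Theory D'}
  {i : D →ₗᵢ[ℂ] D'} {T' : Ix → Ix → Fld D'}

lemma xt_dw (h : Sect Q P i) {B : Fld D} {B' : Fld D'} (x : Xt i B B') (κ t : ℝ) :
    Xt i (dw Q κ t B) (dw P κ t B') := fun f v hf => by
  have e : ∀ t v, i (ue Q t v) = ue P t (i v) := fun t v =>
    h.U _ _ _ v (Real.exp_pos t) H496.isLor_one
  rw [dw, dw, map_smul, e, x _ _ (de_test _ hf), e]

/-- the same in a theory with a sector -/
theorem sect (h : Sect Q P i) (R : M1 P) (hT : Stress0 P T') (aT : ∀ m n, Asy P 4 (T' m n))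
    (x : ∀ m n, Xt i (T m n) (T' m n)) (hS : Q.IsStress S)
    (hM : ∀ m n, Mf (fun t => dw Q 0 t (T m n)) (S m n))
    (d : ∀ m n l f v, IsTest f → dw Q 0 l (S m n) f v = S m n f v) :
    ∃ S', P.IsStress S' ∧ (∀ m n, Xt i (S m n) (S' m n)) ∧
      ∀ A, Der P A → ND.PCh P T' A → ND.PCh P S' A := by
  have hC : Cv P := fun s hs => h.cov s _ 0 hs H496.isLor_one
  have hC' := clo_clo R hC
  have E := clo_enl P
  have bz : ∀ {B C : Fld D'}, (clo P).bose B → (clo P).bose C →
      (∀ f, IsTest f → B f (i Q.vac) = C f (i Q.vac)) → ∀ f v, IsTest f → B f v = C f v :=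
    fun {B C} hB hC e f v hf => by
      simpa [add_neg_eq_zero] using FE.bz (hC'.blin (-1) hB hC) (fun f hf => by
        show B f P.vac + _ • C f P.vac = 0
        rw [← h.vac, e f hf, neg_one_smul, add_neg_cancel]) hf v
  choose Y F Z hY using fun m n => marg R (κ := 0) (by norm_num) (aT m n)
  choose S' _ b _ y _ using fun m n => h.bose _ _ (hS.bose m n) (hS.herm m n)
  have e : ∀ m n f v, IsTest f → S' m n f v = Y m n f v := fun m n =>
    bz (E.bose _ (b m n)) ((hY m n).bY hC') fun f hf => by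
      rw [← y m n f _ hf, ← sub_eq_zero]
      set u := i (S m n f Q.vac) - Y m n f (i Q.vac) with hu
      have h1 : ∀ w, inner ℂ (i w) u = 0 := fun w => by
        rw [hu, inner_sub_right, i.inner_map_map, sub_eq_zero]
        exact (hM m n f _ w hf).eq ((hY m n).mf f _ _ hf) fun t => by
          simp only [← xt_dw h (x m n) 0 t f _ hf, i.inner_map_map]
      have h2 : inner ℂ u (Y m n f (i Q.vac)) = 0 :=
        ((hY m n).mf f _ _ hf).eq (ap.const 0) fun t => by
          beta_reduce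
          rw [← xt_dw h (x m n) 0 t f _ hf, ← inner_conj_symm, h1, map_zero]
      rw [← inner_self_eq_zero (𝕜 := ℂ)]
      nth_rw 2 [hu]
      rw [inner_sub_right, h2, ← inner_conj_symm, h1, map_zero, sub_zero]
  obtain ⟨s1, s2⟩ := st_marg R hC (fun L a hL => (h.cov 1 L a one_pos hL).1) hT b
    fun m n => (hY m n).mf.cg (e m n)
  exact ⟨S', stress_of R s1 fun m n l => bz (bdw (Q := clo P) R hC' 0 l (E.bose _ (b m n)))
    (E.bose _ (b m n)) fun f hf => by
      rw [← y m n f _ hf, ← d m n l f _ hf, xt_dw h (y m n) 0 l f _ hf], y, s2⟩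

end

end Vale.Agent.P352AA
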