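import Vale.Agent.P352AA.St
import Vale.Agent.P352AA.Cf
import Vale.Agent.P352AA.Mx

/-!
# P352AA: the theorem
-/

set_option linter.all false

namespace Vale.Agent.P352AA

open Vale.Agent.P352 Vale.Agent.P352.GF Vale.Agent.P352.BW Vale.Agent.P352.H246
open Vale.Agent.P352.H496 Vale.Agent.P352.H755 Vale.Agent.P352.H15
open Vale.Agent.P352X Vale.Agent.P352Z
open UniformSpace (Completion)

universe u

theorem final {D : Type u} {D' : Type*} [NormedAddCommGroup D] [InnerProductSpace ℂ D]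
    [NormedAddCommGroup D'] [InnerProductSpace ℂ D'] (Q : Theory D)
    (T : Ix → Ix → Fld D) (hT : Stress0 Q T) (A : (V → V) → D → D) (hA : ND.PCh Q T A)
    (J : Ix → Fld D) (hV : Virial0 Q T J A) (hC : ∀ s, 0 < s → Cov Q s GF.one 0)
    (aT : ∀ m n, Asy Q 4 (T m n)) (aJ : ∀ m, Asy Q 3 (J m)) (hG : TfGen Q)
    (N : Set V → VonNeumannAlgebra (Completion D)) (hN : LNm Q A N) (hU : L.UVac Q)
    (hR : RecV Q ∨ Borch Q N) :
    ∃ S K, IsImpr Q T (improveJ S K) ∧ (∀ Q' : Theory D, IsEnl Q Q' → Conf Q' id S K) ∧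
      ∀ (P : Theory D') i G T' A', Sect Q P i → Gr P G → Stress0 P T' → Der P A' →
        ND.PCh P T' A' → (∀ m n, Asy P 4 (T' m n)) → (∀ m n, Xt i (T m n) (T' m n)) →
        ∃ S' K', IsImpr P T' (improveJ S' K') ∧ Conf P G S' K' := by
  obtain ⟨S, h1, h2, h3, h4⟩ := core hT hA hV hC aT aJ hG hN hU
  obtain ⟨K, hK, hc⟩ : ∃ K, IsVirial Q S K ∧ Curl K Q.vac := by
    obtain ⟨c, rfl, rfl, rfl, tp⟩ := EG.Pt.ctxN Q S A N h1 h2 hG hN hU
    haveI : Fact c.tp := ⟨tp⟩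
    have t := t3_thm c
    obtain ⟨K, a, b⟩ := hR.elim (g3_rec t.grp t.jc (main c).2.1) (g3_max c)
    exact ⟨K, a, curl_of b⟩
  obtain ⟨h5, h6⟩ := conf_all (D' := D') Q S A h2 hG N hN hU h1 hK hc
  refine ⟨S, K, Fss.impr hT hA h1 h2 (h5 Q ⟨rfl, rfl, fun _ h => h, fun _ h => h⟩).impr, h5,
    fun P i G T' A' h g hT' hD hA' aT' x => ?_⟩
  obtain ⟨S', a1, a2, a3⟩ := sect h (Fss.G.m1_gr g) hT' aT' x h1 h3 h4
  obtain ⟨K', -, a4⟩ := h6 P i G S' h g a1 a2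
  exact ⟨S', K', Fss.impr hT' hA' a1 (a3 A' hD hA') a4.impr, a4⟩

end Vale.Agent.P352AA
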